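import Mathlib

/-!
# Typed cells of the line that only tile along one lattice

A cell is a unit interval with a hole and a bump. The size of a hole records a type in `ZMod N`,
which grows by one along the line.
-/

namespace Vale.Agent.P043.R2.Cell

open MeasureTheory Set

/-- The line. -/
abbrev Pl := ℝ

variable {N : ℕ} [NeZero N]

/-- The hole radius of a type. -/
noncomputable def rad (j : ZMod N) : ℝ := 1 / 200 + (j.val : ℝ) / (200 * N)

/-- The hole of a cell, also the shape of its bump. -/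
noncomputable def hole (a r : ℝ) : Set Pl := Ioo (a + 1 / 4 - r) (a + 1 / 4 + r)

/-- The cell of type `j` at `a`. -/
noncomputable def cell (p : Pl × ZMod N) : Set Pl :=
  (Ioo p.1 (p.1 + 1) \ hole p.1 (rad p.2)) ∪ hole (p.1 + 1) (rad (p.2 + 1))

theorem rad_bounds (j : ZMod N) : 1 / 200 ≤ rad j ∧ rad j ≤ 1 / 100 := by
  have hN : (0 : ℝ) < N := by exact_mod_cast Nat.pos_of_ne_zero (NeZero.ne N)
  have h : (j.val : ℝ) ≤ N := by exact_mod_cast j.val_lt.le
  have h2 : (j.val : ℝ) / (200 * N) ≤ 1 / 200 := by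
    rw [div_le_div_iff₀ (by positivity) (by norm_num)]; linarith
  have h3 : (0 : ℝ) ≤ (j.val : ℝ) / (200 * N) := by positivity
  unfold rad
  constructor <;> linarith

theorem rad_inj : Function.Injective (rad : ZMod N → ℝ) := by
  intro i j h
  have hN : (200 * (N : ℝ)) ≠ 0 :=
    mul_ne_zero (by norm_num) (by exact_mod_cast NeZero.ne N)
  simp only [rad, add_right_inj, div_left_inj' hN, Nat.cast_inj] at h
  exact ZMod.val_injective N h

theorem measurableSet_cell (p : Pl × ZMod N) : MeasurableSet (cell p) :=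
  (measurableSet_Ioo.diff measurableSet_Ioo).union measurableSet_Ioo

theorem cell_subset (p : Pl × ZMod N) : cell p ⊆ Icc p.1 (p.1 + 2) := by
  have := rad_bounds (p.2 + 1)
  rintro x (⟨⟨h1, h2⟩, -⟩ | ⟨h1, h2⟩) <;> constructor <;> linarith

theorem isBounded_cell (p : Pl × ZMod N) : Bornology.IsBounded (cell p) :=
  (Metric.isBounded_Icc _ _).subset (cell_subset p)

theorem cell_vadd (p : Pl × ZMod N) (b x : Pl) : x ∈ cell (p.1 + b, p.2) ↔ x - b ∈ cell p := by
  have e : ∀ c c' d d' : ℝ, c' = c + b → d' = d + b → (x ∈ Ioo c' d' ↔ x - b ∈ Ioo c d) := by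
    rintro c _ d _ rfl rfl
    simp only [mem_Ioo]
    constructor <;> rintro ⟨_, _⟩ <;> constructor <;> linarith
  simp only [cell, hole, mem_union, mem_sdiff]
  refine or_congr (and_congr (e _ _ _ _ ?_ ?_) (not_congr (e _ _ _ _ ?_ ?_))) (e _ _ _ _ ?_ ?_)
  all_goals ring

theorem bump_subset (p : Pl × ZMod N) : hole (p.1 + 1) (rad (p.2 + 1)) ⊆ cell p := fun _ h => Or.inr h

theorem cell_nonempty_open (p : Pl × ZMod N) : 0 < volume (cell p) := by
  refine lt_of_lt_of_le ?_ (measure_mono (bump_subset p))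
  have := rad_bounds (p.2 + 1)
  rw [hole, Real.volume_Ioo, ENNReal.ofReal_pos]
  linarith

/-- The translation set of a tiling by cells. -/
structure IsTiling (C : Set (Pl × ZMod N)) : Prop where
  cover : volume (⋃ p ∈ C, cell p)ᶜ = 0
  disj : ∀ p ∈ C, ∀ q ∈ C, p ≠ q → volume (cell p ∩ cell q) = 0

variable {C : Set (Pl × ZMod N)}

theorem eq_of_close (hC : IsTiling C) {p q : Pl × ZMod N} (hp : p ∈ C) (hq : q ∈ C)
    (h : |p.1 - q.1| ≤ 4 / 5) : p = q := by
  by_contra hne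
  rw [abs_le] at h
  set B : Set Pl := Ioo (max p.1 q.1) (min p.1 q.1 + 1) with hB
  have hsub : B ⊆ (cell p ∩ cell q) ∪ (hole p.1 (rad p.2) ∪ hole q.1 (rad q.2)) := by
    rintro x ⟨a, b⟩
    rw [max_lt_iff] at a
    rw [← sub_lt_iff_lt_add, lt_min_iff] at b
    by_cases u : x ∈ hole p.1 (rad p.2)
    · exact Or.inr (Or.inl u)
    by_cases v : x ∈ hole q.1 (rad q.2)
    · exact Or.inr (Or.inr v)
    exact Or.inl ⟨Or.inl ⟨⟨a.1, by linarith [b.1]⟩, u⟩, Or.inl ⟨⟨a.2, by linarith [b.2]⟩, v⟩⟩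
  have hlo : ENNReal.ofReal (1 / 5) ≤ volume B := by
    rw [hB, Real.volume_Ioo]
    refine ENNReal.ofReal_le_ofReal ?_
    rcases le_total p.1 q.1 with e | e <;> simp [e] <;> linarith
  have hs : ∀ (a : Pl) (j : ZMod N), volume (hole a (rad j)) ≤ ENNReal.ofReal (1 / 50) := by
    intro a j
    rw [hole, Real.volume_Ioo]
    exact ENNReal.ofReal_le_ofReal (by linarith [(rad_bounds j).2])
  have hhi : volume B ≤ ENNReal.ofReal (1 / 50) + ENNReal.ofReal (1 / 50) := by
    refine (measure_mono hsub).trans ((measure_union_le _ _).trans ?_)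
    rw [hC.disj p hp q hq hne, zero_add]
    exact (measure_union_le _ _).trans (add_le_add (hs _ _) (hs _ _))
  have h3 := hlo.trans hhi
  rw [← ENNReal.ofReal_add (by norm_num) (by norm_num), ENNReal.ofReal_le_ofReal_iff (by norm_num)] at h3
  norm_num at h3

theorem exists_filler (hC : IsTiling C) {U : Set Pl} (hU : IsOpen U) (hne : U.Nonempty) :
    ∃ q ∈ C, ∃ x ∈ U, x ∈ cell q := by
  by_contra hc
  push Not at hc
  refine (hU.measure_pos volume hne).ne' (measure_mono_null (fun x hx => ?_) hC.cover)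
  simp only [mem_compl_iff, mem_iUnion, exists_prop, not_exists, not_and]
  exact fun q hq => hc q hq x hx

theorem pred_x (hC : IsTiling C) {a : Pl} {j : ZMod N} (hp : (a, j) ∈ C) : (a - 1, j - 1) ∈ C := by
  have hj := rad_bounds j
  -- what can meet the hole
  have fill : ∀ q ∈ C, ∀ x ∈ hole a (rad j), x ∈ cell q →
      q ≠ (a, j) ∧ x ∈ hole (q.1 + 1) (rad (q.2 + 1)) := by
    intro q hq x hx hxq
    have hne : q ≠ (a, j) := by
      rintro rfl
      rcases hxq with ⟨-, hn⟩ | hb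
      · exact hn hx
      · have := rad_bounds (j + 1)
        linarith [hx.2, hb.1]
    refine ⟨hne, ?_⟩
    rcases hxq with ⟨hb, -⟩ | hb
    · exact absurd (eq_of_close hC hq hp (by
        rw [abs_le]; constructor <;> linarith [hx.1, hx.2, hb.1, hb.2])) hne
    · exact hb
  obtain ⟨⟨b, i⟩, hq, x, hx, hxq⟩ := exists_filler hC (U := hole a (rad j)) isOpen_Ioo
    ⟨a + 1 / 4, by constructor <;> linarith⟩
  obtain ⟨hne, hxb⟩ := fill _ hq x hx hxq
  have hi := rad_bounds (i + 1)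
  have hab : |b + 1 - a| ≤ 1 / 50 := by
    rw [abs_le]; constructor <;> linarith [hx.1, hx.2, hxb.1, hxb.2]
  rw [abs_le] at hab
  -- the bump covers the hole
  have h1 : hole a (rad j) ⊆ Icc (b + 1 + 1 / 4 - rad (i + 1)) (b + 1 + 1 / 4 + rad (i + 1)) := by
    intro z hz
    by_contra hzB
    obtain ⟨q', hq', z', ⟨hz', hz'B⟩, hzq'⟩ := exists_filler hC
      (U := hole a (rad j) ∩ (Icc (b + 1 + 1 / 4 - rad (i + 1)) (b + 1 + 1 / 4 + rad (i + 1)))ᶜ)
      (isOpen_Ioo.inter isClosed_Icc.isOpen_compl) ⟨z, hz, hzB⟩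
    obtain ⟨-, hz'b⟩ := fill q' hq' z' hz' hzq'
    have := rad_bounds (q'.2 + 1)
    obtain rfl : q' = (b, i) := eq_of_close hC hq' hq (by
      rw [abs_le]; simp only; constructor <;> linarith [hz'.1, hz'.2, hz'b.1, hz'b.2])
    exact hz'B (Ioo_subset_Icc_self hz'b)
  -- the hole contains the bump
  have h2 : hole (b + 1) (rad (i + 1)) ⊆ Icc (a + 1 / 4 - rad j) (a + 1 / 4 + rad j) := by
    intro z hz
    by_contra hzc
    have hU : IsOpen (hole (b + 1) (rad (i + 1)) ∩ (Icc (a + 1 / 4 - rad j) (a + 1 / 4 + rad j))ᶜ) :=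
      isOpen_Ioo.inter isClosed_Icc.isOpen_compl
    refine (hU.measure_pos volume ⟨z, hz, hzc⟩).ne' (measure_mono_null ?_ (hC.disj _ hq _ hp hne))
    rintro w ⟨hw, hwc⟩
    refine ⟨Or.inr hw, Or.inl ⟨⟨?_, ?_⟩, fun h => hwc (Ioo_subset_Icc_self h)⟩⟩ <;>
      simp only <;> linarith [hw.1, hw.2]
  have e1 := closure_minimal h1 isClosed_Icc
  have e2 := closure_minimal h2 isClosed_Icc
  rw [hole, closure_Ioo (by linarith)] at e1 e2
  rw [Icc_subset_Icc_iff (by linarith)] at e1 e2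
  have hb : b = a - 1 := by linarith [e1.1, e1.2, e2.1, e2.2]
  have hr : i + 1 = j := rad_inj (by linarith [e1.1, e1.2, e2.1, e2.2])
  rwa [hb, show i = j - 1 by rw [← hr]; ring] at hq

theorem sub_mem (hC : IsTiling C) {a : Pl} {j : ZMod N} (hp : (a, j) ∈ C) (k : ℕ) :
    (a - k, j - k) ∈ C := by
  induction k with
  | zero => simpa using hp
  | succ k ih => have := pred_x hC ih; push_cast at this ⊢; rwa [← sub_sub, ← sub_sub]

/-- All cells of a tiling lie on one lattice and their types follow the line. -/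
theorem lattice (hC : IsTiling C) {p q : Pl × ZMod N} (hp : p ∈ C) (hq : q ∈ C) :
    ∃ k : ℤ, q.1 = p.1 + k ∧ q.2 = p.2 + k := by
  obtain ⟨a, i⟩ := p
  obtain ⟨b, j⟩ := q
  set k := round (b - a)
  have hk := abs_sub_round (b - a)
  have ek : ((k.toNat : ℕ) : ℝ) - (((-k).toNat : ℕ) : ℝ) = k := by
    exact_mod_cast Int.toNat_sub_toNat_neg k
  have hm := eq_of_close hC (sub_mem hC hq k.toNat) (sub_mem hC hp (-k).toNat)
    (by rw [abs_le] at hk ⊢; simp only; constructor <;> linarith [hk.1, hk.2, ek])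
  simp only [Prod.mk.injEq] at hm
  refine ⟨k, by simp only; linarith [hm.1], ?_⟩
  have ez : ((k.toNat : ℕ) : ℤ) - (((-k).toNat : ℕ) : ℤ) = k := Int.toNat_sub_toNat_neg k
  show j = i + (k : ZMod N)
  rw [← ez]
  push_cast
  linear_combination hm.2

/-- The lattice points. -/
def lat (u : ℤ) : Pl × ZMod N := ((u : ℝ), (u : ZMod N))

/-- The integers. -/
def grid : Set Pl := range (Int.cast : ℤ → ℝ)

theorem volume_grid : volume grid = 0 := (countable_range _).measure_zero volume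

theorem existsUnique_cell {x : Pl} (hx : x ∉ grid) : ∃! u : ℤ, x ∈ cell (N := N) (lat u) := by
  set f : ℤ := ⌊x⌋ with hf
  have hlo : (f : ℝ) < x := lt_of_le_of_ne (Int.floor_le x) fun e => hx ⟨f, e⟩
  have hhi : x < f + 1 := Int.lt_floor_add_one x
  have hbody : ∀ u : ℤ, x ∈ Ioo (u : ℝ) (u + 1) ↔ u = f := by
    intro u
    refine ⟨fun h => (Int.floor_eq_iff.2 ⟨h.1.le, h.2⟩).symm, ?_⟩
    rintro rfl
    exact ⟨hlo, hhi⟩
  have hbump : ∀ u : ℤ, x ∈ hole ((u : ℝ) + 1) (rad ((u : ZMod N) + 1)) ↔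
      u = f - 1 ∧ x ∈ hole (f : ℝ) (rad (f : ZMod N)) := by
    intro u
    constructor
    · intro h
      have := rad_bounds ((u : ZMod N) + 1)
      have e := (hbody (u + 1)).1 (by push_cast; constructor <;> linarith [h.1, h.2])
      rw [← e]
      refine ⟨by ring, ?_⟩
      push_cast
      exact h
    · rintro ⟨rfl, h⟩
      push_cast
      simpa using h
  have hmem : ∀ u : ℤ, x ∈ cell (N := N) (lat u) ↔
      (u = f ∧ x ∉ hole (f : ℝ) (rad (f : ZMod N))) ∨
      (u = f - 1 ∧ x ∈ hole (f : ℝ) (rad (f : ZMod N))) := by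
    intro u
    simp only [cell, lat, mem_union, mem_sdiff, hbody, hbump]
    refine or_congr_left ⟨?_, ?_⟩
    · rintro ⟨rfl, h⟩; exact ⟨rfl, h⟩
    · rintro ⟨rfl, h⟩; exact ⟨rfl, h⟩
  by_cases h1 : x ∈ hole (f : ℝ) (rad (f : ZMod N))
  · refine ⟨f - 1, (hmem _).2 (Or.inr ⟨rfl, h1⟩), fun u hu => ?_⟩
    rcases (hmem u).1 hu with ⟨-, h⟩ | ⟨h, -⟩
    · exact absurd h1 h
    · exact h
  refine ⟨f, (hmem _).2 (Or.inl ⟨rfl, h1⟩), fun u hu => ?_⟩
  rcases (hmem u).1 hu with ⟨h, -⟩ | ⟨-, h⟩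
  · exact h
  · exact absurd h h1

end Vale.Agent.P043.R2.Cell
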