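import Vale.Agent.P043.R2.Slots

/-!
# No pure solution: counting modulo `4` and modulo `9`
-/

namespace Vale.Agent.P043.R2

open Finset

/-- The sum of `c` over a residue class. -/
def marg (q : ℕ) (c : ZMod 44100 → ℕ) (hq : q ∣ 44100) (u : ZMod q) : ℕ :=
  ∑ x : ZMod 44100, if ZMod.castHom hq (ZMod q) x = u then c x else 0

theorem fibre_eq (q : ℕ) [NeZero q] (hq : q ∣ 44100) (u : ZMod q) :
    marg q (fun _ => 1) hq u = marg q (fun _ => 1) hq 0 := by
  unfold marg
  refine Fintype.sum_equiv (Equiv.addRight (-(u.val : ZMod 44100))) _ _ fun x => ?_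
  simp only [Equiv.coe_addRight, map_add, map_neg, map_natCast, ZMod.natCast_zmod_val,
    add_neg_eq_zero]

theorem fibre_card (q : ℕ) [NeZero q] (hq : q ∣ 44100) (u : ZMod q) :
    q * marg q (fun _ => 1) hq u = 44100 := by
  have h : ∑ v : ZMod q, marg q (fun _ => 1) hq v = 44100 := by
    unfold marg
    rw [Finset.sum_comm, Finset.sum_congr rfl fun x _ =>
      Finset.sum_ite_eq univ (ZMod.castHom hq (ZMod q) x) fun _ => 1]
    simp [ZMod.card]
  rw [Finset.sum_congr rfl fun v _ => (fibre_eq q hq v).trans (fibre_eq q hq u).symm,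
    Finset.sum_const, Finset.card_univ, ZMod.card, smul_eq_mul] at h
  exact h

theorem marg_eq (q : ℕ) [NeZero q] (hq : q ∣ 44100) (l : ℕ) (c : ZMod 44100 → ℕ) (e : Bool)
    (h : ∀ x : ZMod 44100, ∑ s : Slot, c (x - (site e s : ZMod 44100)) = l) (u : ZMod q) :
    ∑ v : ZMod q, (univ.filter fun s : Slot => ((site e s : ZMod q)) = v).card * marg q c hq (u - v)
      = l * marg q (fun _ => 1) hq u := by
  have h1 : ∀ s : Slot, marg q (fun x => c (x - (site e s : ZMod 44100))) hq u
      = marg q c hq (u - (site e s : ZMod q)) := by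
    intro s
    unfold marg
    refine Fintype.sum_equiv (Equiv.subRight (site e s : ZMod 44100)) _ _ fun x => ?_
    simp only [Equiv.subRight_apply, map_sub, map_intCast, sub_left_inj]
  calc ∑ v : ZMod q, (univ.filter fun s : Slot => ((site e s : ZMod q)) = v).card * marg q c hq (u - v)
      = ∑ s : Slot, marg q c hq (u - (site e s : ZMod q)) := by
        rw [← Finset.sum_fiberwise' univ (fun s : Slot => (site e s : ZMod q))
          (fun v => marg q c hq (u - v))]
        simp [Finset.sum_const, smul_eq_mul]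
    _ = ∑ s : Slot, marg q (fun x => c (x - (site e s : ZMod 44100))) hq u := by
        simp only [h1]
    _ = l * marg q (fun _ => 1) hq u := by
        unfold marg
        rw [Finset.sum_comm, Finset.mul_sum]
        refine Finset.sum_congr rfl fun x _ => ?_
        split_ifs <;> simp [h x]

set_option maxRecDepth 100000 in
theorem card4 : ∀ (e : Bool) (v : ZMod 4),
    (univ.filter fun s : Slot => ((site e s : ZMod 4)) = v).card
      = if v = 0 ∨ (e = false ∧ v = 2) ∨ (e = true ∧ v = 1) then 105 else 0 := by decide +kernel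

set_option maxRecDepth 100000 in
theorem card9 : ∀ (e : Bool) (v : ZMod 9),
    (univ.filter fun s : Slot => ((site e s : ZMod 9)) = v).card
      = if v = 0 ∨ (e = false ∧ (v = 3 ∨ v = 6)) ∨ (e = true ∧ (v = 1 ∨ v = 2)) then 70 else 0 := by
  decide +kernel

theorem no_four (c : ZMod 44100 → ℕ)
    (h : ∀ (e : Bool) (x : ZMod 44100), ∑ s : Slot, c (x - (site e s : ZMod 44100)) = 525) :
    False := by
  have hq : 4 ∣ 44100 := by norm_num
  have H : ∀ e u, _ := fun e u => marg_eq 4 hq 525 c e (h e) u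
  have hF : ∀ u : ZMod 4, marg 4 (fun _ => 1) hq u = 11025 := fun u => by
    have := fibre_card 4 hq u; omega
  simp only [card4, hF] at H
  generalize marg 4 c hq = C at H
  have a0 := H false 0
  have a1 := H false 1
  have b0 := H true 0
  have b1 := H true 1
  have b2 := H true 2
  have b3 := H true 3
  simp [show ∀ f : ZMod 4 → ℕ, ∑ v, f v = f 0 + f 1 + f 2 + f 3 from fun f => Fin.sum_univ_four f,
    show (0 : ZMod 4) - 1 = 3 from rfl, show (0 : ZMod 4) - 2 = 2 from rfl,
    show (1 : ZMod 4) - 2 = 3 from rfl, show (1 : ZMod 4) - 1 = 0 from rfl,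
    show (2 : ZMod 4) - 1 = 1 from rfl, show (3 : ZMod 4) - 1 = 2 from rfl,
    show (1 : ZMod 4) ≠ 2 from by decide, show (3 : ZMod 4) ≠ 2 from by decide,
    show (3 : ZMod 4) ≠ 1 from by decide, show (2 : ZMod 4) ≠ 1 from by decide,
    show (2 : ZMod 4) ≠ 0 from by decide, show (3 : ZMod 4) ≠ 0 from by decide,
    show (1 : ZMod 4) ≠ 0 from by decide] at a0 a1 b0 b1 b2 b3
  omega

theorem no_nine (c : ZMod 44100 → ℕ)
    (h : ∀ (e : Bool) (x : ZMod 44100), ∑ s : Slot, c (x - (site e s : ZMod 44100)) = 2) :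
    False := by
  have hq : 9 ∣ 44100 := by norm_num
  have H : ∀ e u, _ := fun e u => marg_eq 9 hq 2 c e (h e) u
  have hF : ∀ u : ZMod 9, marg 9 (fun _ => 1) hq u = 4900 := fun u => by
    have := fibre_card 9 hq u; omega
  simp only [card9, hF] at H
  generalize marg 9 c hq = C at H
  have hu : (univ : Finset (ZMod 9)) = {0, 1, 2, 3, 4, 5, 6, 7, 8} := by decide
  have a0 := H false 0
  have b2 := H true 2
  have b3 := H true 3
  have b5 := H true 5
  have b6 := H true 6
  simp +decide [hu, show (0 : ZMod 9) - 3 = 6 from rfl, show (0 : ZMod 9) - 6 = 3 from rfl,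
    show (2 : ZMod 9) - 1 = 1 from rfl, show (2 : ZMod 9) - 2 = 0 from rfl,
    show (3 : ZMod 9) - 1 = 2 from rfl, show (3 : ZMod 9) - 2 = 1 from rfl,
    show (5 : ZMod 9) - 1 = 4 from rfl, show (5 : ZMod 9) - 2 = 3 from rfl,
    show (6 : ZMod 9) - 1 = 5 from rfl, show (6 : ZMod 9) - 2 = 4 from rfl] at a0 b2 b3 b5 b6
  rw [show (-3 : ZMod 9) = 6 from rfl, show (-6 : ZMod 9) = 3 from rfl] at a0
  omega

/-- A periodic count cannot solve both equations with multiplicity `525`, nor with `2`. -/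
theorem no_count (g l : ℕ) (hgl : (g = 2 ∧ l = 525) ∨ (g = 525 ∧ l = 2)) (c : ℤ → ℕ)
    (hp : ∀ n, c (n + 44100) = c n)
    (h : ∀ (e : Bool) (r : ℤ), (∑ s : Slot, c (r - site e s)) = l) : False := by
  have hper : Function.Periodic c 44100 := hp
  have hval : ∀ n : ℤ, c (((n : ZMod 44100)).val : ℤ) = c n := by
    intro n
    rw [ZMod.val_intCast, Int.emod_def, mul_comm]
    exact hper.sub_int_mul_eq _
  have h' : ∀ (e : Bool) (x : ZMod 44100),
      ∑ s : Slot, c (((x - (site e s : ZMod 44100)).val : ℤ)) = l := by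
    intro e x
    rw [← h e (x.val : ℤ)]
    refine Finset.sum_congr rfl fun s _ => ?_
    rw [← hval ((x.val : ℤ) - site e s)]
    push_cast
    rw [ZMod.natCast_zmod_val]
  rcases hgl with ⟨-, rfl⟩ | ⟨-, rfl⟩
  · exact no_four (fun x => c (x.val : ℤ)) h'
  · exact no_nine (fun x => c (x.val : ℤ)) h'

end Vale.Agent.P043.R2
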