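import Vale.Agent.P043.R2.Modes
import Vale.Agent.P043.R2.Count

/-!
# The system has no periodic solution

A period kills either all odd modes or all modes not divisible by `525`. The points of each site
then form full classes under the rotation by `525`, respectively by `2`, and counting contradicts
both equations.
-/

namespace Vale.Agent.P043.R2

open Finset

/-- A finite set on the circle whose modes vanish off the multiples of `g` has full classes. -/
theorem dvd_card_of_modes {g : ℕ} (hg : 0 < g) {P : Finset ℝ}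
    (hP : ∀ x ∈ P, x ∈ Set.Ico (0 : ℝ) 1050)
    (h : ∀ k, ¬ g ∣ k → ∑ x ∈ P, ch k x = 0) : g ∣ P.card := by
  classical
  have hpow : ∀ (k : ℕ) (x : ℝ), ch k x = ch 1 x ^ k := by
    intro k x
    induction k with
    | zero => simp [ch, ee_zero]
    | succ k ih =>
      rw [pow_succ, ← ih, ch, ch, ch, ← ee_add]
      congr 1; push_cast; ring
  have hinj : ∀ x ∈ P, ∀ y ∈ P, ch 1 x = ch 1 y → x = y := by
    intro x hx y hy e
    obtain ⟨t, ht⟩ := (ch_eq_one_iff 1 (x - y)).1 (by
      refine mul_right_cancel₀ (ch_ne_zero 1 y) ?_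
      rw [one_mul, ← ch_add, sub_add_cancel, e])
    rw [Nat.cast_one, one_mul] at ht
    obtain ⟨hx0, hx1⟩ := hP x hx
    obtain ⟨hy0, hy1⟩ := hP y hy
    have h1 : (t : ℝ) < 1 := by linarith
    have h2 : (-1 : ℝ) < t := by linarith
    have h1' : t < 1 := by exact_mod_cast h1
    have h2' : -1 < t := by exact_mod_cast h2
    obtain rfl : t = 0 := by omega
    simp at ht; linarith
  set z : ℝ → ℂ := fun x => ch 1 x ^ g
  set Q := P.image z
  have hfib : ∀ q ∈ Q, ∀ k, ¬ g ∣ k → ∑ x ∈ P.filter (fun x => z x = q), ch 1 x ^ k = 0 := by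
    intro q hq k hk
    set R : Polynomial ℂ := ∏ r ∈ Q.erase q, (Polynomial.X - Polynomial.C r)
    have hR0 : ∀ r ∈ Q, r ≠ q → R.eval r = 0 := by
      intro r hr hne
      rw [Polynomial.eval_prod]
      exact Finset.prod_eq_zero (Finset.mem_erase.2 ⟨hne, hr⟩) (by simp)
    have hRq : R.eval q ≠ 0 := by
      rw [Polynomial.eval_prod, Finset.prod_ne_zero_iff]
      intro r hr
      simp only [Polynomial.eval_sub, Polynomial.eval_X, Polynomial.eval_C, sub_ne_zero]
      exact (Finset.ne_of_mem_erase hr).symm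
    have hsum : ∑ x ∈ P, ch 1 x ^ k * R.eval (z x) = 0 := by
      simp only [Polynomial.eval_eq_sum_range, Finset.mul_sum]
      rw [Finset.sum_comm]
      refine Finset.sum_eq_zero fun j _ => ?_
      have := h (k + g * j) (fun hd => hk ((Nat.dvd_add_left (dvd_mul_right g j)).1 hd))
      rw [← mul_zero (R.coeff j), ← this, Finset.mul_sum]
      refine Finset.sum_congr rfl fun x _ => ?_
      rw [hpow (k + g * j) x, pow_add, pow_mul]
      ring
    have hsplit : ∑ x ∈ P, ch 1 x ^ k * R.eval (z x)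
        = (∑ x ∈ P.filter (fun x => z x = q), ch 1 x ^ k) * R.eval q := by
      rw [Finset.sum_mul, Finset.sum_filter]
      refine Finset.sum_congr rfl fun x hx => ?_
      split_ifs with e
      · rw [e]
      · rw [hR0 _ (Finset.mem_image_of_mem z hx) e, mul_zero]
    exact (mul_eq_zero.1 (hsplit ▸ hsum)).resolve_right hRq
  have hcard : ∀ q ∈ Q, (P.filter fun x => z x = q).card = g := by
    intro q hq
    set F := P.filter fun x => z x = q
    obtain ⟨w, hwP, hwq⟩ := Finset.mem_image.1 hq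
    have hw : w ∈ F := Finset.mem_filter.2 ⟨hwP, hwq⟩
    have e1 : ∑ k ∈ Finset.range g, ∑ x ∈ F, (ch 1 x / ch 1 w) ^ k = (F.card : ℂ) := by
      rw [Finset.sum_eq_single 0]
      · simp
      · intro k hk hk0
        simp only [div_pow, ← Finset.sum_div]
        rw [hfib q hq k fun hd => hk0 (Nat.eq_zero_of_dvd_of_lt hd (Finset.mem_range.1 hk)), zero_div]
      · intro h0; exact absurd (Finset.mem_range.2 hg) h0
    have e2 : ∑ k ∈ Finset.range g, ∑ x ∈ F, (ch 1 x / ch 1 w) ^ k = (g : ℂ) := by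
      rw [Finset.sum_comm, Finset.sum_eq_single_of_mem w hw]
      · simp [div_self (ch_ne_zero 1 w)]
      · intro x hx hne
        obtain ⟨hxP, hxq⟩ := Finset.mem_filter.1 hx
        have hne1 : ch 1 x / ch 1 w ≠ 1 := fun e =>
          hne (hinj x hxP w hwP ((div_eq_one_iff_eq (ch_ne_zero 1 w)).1 e))
        rw [geom_sum_eq hne1]
        have : (ch 1 x / ch 1 w) ^ g = 1 := by
          rw [div_pow, show ch 1 x ^ g = ch 1 w ^ g from hxq.trans hwq.symm,
            div_self (pow_ne_zero _ (ch_ne_zero 1 w))]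
        rw [this, sub_self, zero_div]
    exact_mod_cast e1.symm.trans e2
  rw [Finset.card_eq_sum_card_image z P]
  exact Finset.dvd_sum fun q hq => by rw [hcard q hq]

variable {A : Set Pt}

/-- An equation and its moved version agree in the piece that moves. -/
theorem moved_eq {M : Type} [AddCommGroup M] (t : Bool) (F : Piece → M) {c : M}
    (h1 : ∑ p ∈ eqn false t, F p = c) (h2 : ∑ p ∈ mvd 44100 0 t, F p = c) :
    F (0, 0, t) = F (44100, 0, t) := by
  have hne : ((44100, 0, t) : Piece) ∉ (eqn false t).erase (0, 0, t) := by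
    intro h
    obtain ⟨s, hs⟩ := mem_eqn.1 (Finset.mem_of_mem_erase h)
    have := congrArg Prod.fst hs
    have := site_range false s
    simp only [slotP] at *
    omega
  rw [mvd, Finset.sum_insert hne] at h2
  rw [← Finset.add_sum_erase _ F (zero_mem_eqn t)] at h1
  exact add_right_cancel (h1.trans h2.symm)

theorem cnt_per (hA : Sol A) (n : ℤ) : cnt A (n + 44100) = cnt A n := by
  have h := moved_eq (M := ℤ) false (fun p => (cnt A (n + 44100 - p.1) : ℤ)) (c := 1050)
    (by exact_mod_cast mode_zero hA (hA.base false false) (good_eqn _ _) (n + 44100))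
    (by exact_mod_cast mode_zero hA (hA.mn false) (good_mn _) (n + 44100))
  simpa using h

/-- The phase of mode `k` over `44100` sites. -/
noncomputable def zz (k : ℕ) : ℂ := ch k (-44100 * dd)

theorem moved_mode (hA : Sol A) (n : ℤ) {k : ℕ} (hk : k ≠ 0) (t : Bool) :
    ((ch k 525 - 1) + (1 - ch k 524) * ch k (th t)) * V A k n
      = ((ch k 525 - 1) + (1 - ch k 524) * (ch k (th t) * zz k)) * V A k (n - 44100) := by
  have h := moved_eq t
    (fun p => ch k p.2.1 * ((ch k 525 - 1) + (1 - ch k 524) * ch k (brk p)) * V A k (n - p.1))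
    (mode_eq hA (hA.base false t) (good_eqn _ _) n hk) (mode_eq hA (hA.mn t) (good_mn _) n hk)
  simp only [brk, Int.cast_zero, zero_mul, sub_zero, Int.cast_ofNat, ch_zero, one_mul] at h
  rw [h, zz, ← ch_add]
  congr 3
  ring_nf

theorem ch_even (k : ℕ) : ch k 525 = 1 ↔ 2 ∣ k := by
  rw [ch_eq_one_iff]
  constructor
  · rintro ⟨t, ht⟩
    have h1 : ((k : ℤ) : ℝ) = ((2 * t : ℤ) : ℝ) := by push_cast; linarith
    have : (k : ℤ) = 2 * t := by exact_mod_cast h1
    omega
  · rintro ⟨m, rfl⟩
    exact ⟨m, by push_cast; ring⟩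

theorem ch_524 (k : ℕ) : ch k 524 = 1 ↔ 525 ∣ k := by
  rw [ch_eq_one_iff]
  constructor
  · rintro ⟨t, ht⟩
    have h1 : (((k : ℤ) * 524 : ℤ) : ℝ) = ((1050 * t : ℤ) : ℝ) := by push_cast; linarith
    have : (k : ℤ) * 524 = 1050 * t := by exact_mod_cast h1
    omega
  · rintro ⟨m, rfl⟩
    exact ⟨262 * m, by push_cast; ring⟩

theorem zz_ne_one {k : ℕ} (hk : k ≠ 0) : zz k ≠ 1 := by
  rw [zz, Ne, ch_eq_one_iff]
  rintro ⟨t, ht⟩
  refine dd_irr (-(1050 * t)) (44100 * k) ?_
  have : (k : ℝ) ≠ 0 := by exact_mod_cast hk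
  push_cast
  field_simp
  linarith

/-- The moving modes. -/
theorem mov_mode (hA : Sol A) (n : ℤ) {k : ℕ} (hk : ¬ 525 ∣ k) :
    V A k n = zz k * V A k (n - 44100) ∧ (¬ 2 ∣ k → V A k n = 0) := by
  have hk0 : k ≠ 0 := by rintro rfl; exact hk (dvd_zero _)
  have h1 := moved_mode hA n hk0 false
  have h2 := moved_mode hA n hk0 true
  have hE : ch k (th false) - ch k (th true) ≠ 0 := by
    rw [sub_ne_zero]
    intro e
    apply hk
    simp only [th, cond_false, cond_true] at e
    rw [show (1 / 3 : ℝ) = 1 / 4 + 1 / 12 by norm_num, ch_add] at e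
    obtain ⟨t, ht⟩ := (ch_eq_one_iff k (1 / 12)).1
      (mul_left_cancel₀ (ch_ne_zero k (1 / 4)) (by rw [mul_one, ← e]))
    have h1 : ((k : ℤ) : ℝ) = ((12600 * t : ℤ) : ℝ) := by push_cast; linarith
    have : (k : ℤ) = 12600 * t := by exact_mod_cast h1
    omega
  have hb : 1 - ch k 524 ≠ 0 := by
    rw [sub_ne_zero]; exact fun e => hk ((ch_524 k).1 e.symm)
  have hz : V A k n = zz k * V A k (n - 44100) := by
    refine mul_left_cancel₀ (mul_ne_zero hb hE) ?_
    linear_combination h1 - h2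
  refine ⟨hz, fun h2k => ?_⟩
  have ha : ch k 525 - 1 ≠ 0 := by
    rw [sub_ne_zero]; exact fun e => h2k ((ch_even k).1 e)
  have hzero : V A k (n - 44100) = 0 := by
    have hm : (ch k 525 - 1) * (zz k - 1) * V A k (n - 44100) = 0 := by
      rw [hz] at h1
      linear_combination h1
    exact (mul_eq_zero.1 hm).resolve_left (mul_ne_zero ha (sub_ne_zero.2 (zz_ne_one hk0)))
  rw [hz, hzero, mul_zero]

/-- The static modes. -/
theorem sta_mode (hA : Sol A) (n : ℤ) {k : ℕ} (hk : 525 ∣ k) (h2k : ¬ 2 ∣ k) :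
    V A k n = V A k (n - 44100) := by
  have hk0 : k ≠ 0 := by rintro rfl; exact h2k (dvd_zero _)
  have h := moved_mode hA n hk0 false
  rw [(ch_524 k).2 hk, sub_self, zero_mul, zero_mul, add_zero] at h
  exact mul_left_cancel₀ (sub_ne_zero.2 fun e => h2k ((ch_even k).1 e)) h

theorem iterate_period {f : ℤ → ℂ} {z : ℂ} {P : ℤ} (h : ∀ n, f (n + P) = z * f n) (m : ℕ) (n : ℤ) :
    f (n + m * P) = z ^ m * f n := by
  induction m generalizing n with
  | zero => simp
  | succ m ih => rw [show n + ((m + 1 : ℕ) : ℤ) * P = n + m * P + P by push_cast; ring, h, ih,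
      pow_succ]; ring

theorem ch_pow (k : ℕ) (x : ℝ) (m : ℕ) : ch k x ^ m = ch k (m * x) := by
  induction m with
  | zero => simp [ch_zero]
  | succ m ih => rw [pow_succ, ih, ← ch_add]; congr 1; push_cast; ring

/-- The moving modes over multiples of `44100` sites. -/
theorem mov_iterate (hA : Sol A) {k : ℕ} (hk : ¬ 525 ∣ k) (M n : ℤ) :
    V A k (n + 44100 * M) = ch k (-44100 * dd * M) * V A k n := by
  induction M with
  | zero => simp [ch_zero]
  | succ j ih =>
    rw [show n + 44100 * ((j : ℤ) + 1) = n + 44100 * j + 44100 by ring, (mov_mode hA _ hk).1,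
      add_sub_cancel_right, ih, zz, ← mul_assoc, ← ch_add]
    congr 2; push_cast; ring
  | pred j ih =>
    have e := (mov_mode hA (n + 44100 * (-(j : ℤ))) hk).1
    rw [ih, show n + 44100 * (-(j : ℤ)) - 44100 = n + 44100 * (-(j : ℤ) - 1) by ring] at e
    refine mul_left_cancel₀ (show zz k ≠ 0 from ch_ne_zero _ _) ?_
    rw [← e, zz, ← mul_assoc, ← ch_add]
    congr 2; push_cast; ring

/-- A period kills one of the two families of modes. -/
theorem period_types (hA : Sol A) {M : ℤ} (hM : M ≠ 0) {τ : ℝ}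
    (hP : ∀ n y, (n + M, y + τ) ∈ A ↔ (n, y) ∈ A) :
    (∀ k, ¬ 2 ∣ k → ∀ n, V A k n = 0) ∨ (∀ k, ¬ 525 ∣ k → ∀ n, V A k n = 0) := by
  by_contra hc
  push Not at hc
  obtain ⟨⟨k2, h22, n2, hn2⟩, k1, h15, n1, hn1⟩ := hc
  have h25 : 525 ∣ k2 := by
    by_contra h
    exact hn2 ((mov_mode hA n2 h).2 h22)
  have hV : ∀ (k : ℕ) (n : ℤ), V A k (n + 44100 * M) = ch k (44100 * τ) * V A k n := by
    intro k n
    have := iterate_period (f := V A k) (fun n => V_shift hA hP k n) 44100 n
    rw [ch_pow] at this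
    exact_mod_cast this
  obtain ⟨t1, ht1⟩ := (ch_eq_one_iff k1 (44100 * τ + 44100 * dd * M)).1 (by
    have e := hV k1 n1
    rw [mov_iterate hA h15] at e
    rw [ch_add, ← mul_right_cancel₀ hn1 e, ← ch_add]
    rw [show -44100 * dd * (M : ℝ) + 44100 * dd * M = 0 by ring, ch_zero])
  obtain ⟨t2, ht2⟩ := (ch_eq_one_iff k2 (44100 * τ)).1 (by
    have hs : Function.Periodic (V A k2) 44100 := fun n => by
      simpa using sta_mode hA (n + 44100) h25 h22
    have e : V A k2 (n2 + 44100 * M) = V A k2 n2 := by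
      have := hs.int_mul M n2
      rwa [mul_comm] at this
    rw [hV] at e
    exact mul_right_cancel₀ hn2 (e.trans (one_mul _).symm))
  refine dd_irr (1050 * (t1 * k2 - t2 * k1)) (44100 * M * k1 * k2) ?_
  have hk1 : (k1 : ℝ) ≠ 0 := by exact_mod_cast (show k1 ≠ 0 by rintro rfl; exact h15 (dvd_zero _))
  have hk2 : (k2 : ℝ) ≠ 0 := by exact_mod_cast (show k2 ≠ 0 by rintro rfl; exact h22 (dvd_zero _))
  have hM' : (M : ℝ) ≠ 0 := by exact_mod_cast hM
  push_cast
  field_simp
  linear_combination (k2 : ℝ) * ht1 - (k1 : ℝ) * ht2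

/-- No solution of the system has a period with nonzero first component. -/
theorem no_period (hA : Sol A) {M : ℤ} (hM : M ≠ 0) {τ : ℝ}
    (hP : ∀ n y, (n + M, y + τ) ∈ A ↔ (n, y) ∈ A) : False := by
  have key : ∀ g l : ℕ, ((g = 2 ∧ l = 525) ∨ (g = 525 ∧ l = 2)) →
      (∀ k, ¬ g ∣ k → ∀ n, V A k n = 0) → False := by
    intro g l hgl hV
    have hg : 0 < g := by omega
    have hd : ∀ n, g ∣ cnt A n := fun n =>
      dvd_card_of_modes hg (fun x hx => ((mem_pts hA).1 hx).2) (fun k hk => hV k hk n)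
    refine no_count g l hgl (fun n => cnt A n / g) (fun n => by simp only [cnt_per hA n]) fun e r => ?_
    have h := mode_zero hA (hA.base e false) (good_eqn _ _) r
    rw [sum_eqn] at h
    simp only [slotP] at h
    have hmul : g * ∑ s : Slot, cnt A (r - site e s) / g = 1050 := by
      rw [Finset.mul_sum, ← h]
      exact Finset.sum_congr rfl fun s _ => Nat.mul_div_cancel' (hd _)
    generalize (∑ s : Slot, cnt A (r - site e s) / g) = S at hmul ⊢
    rcases hgl with ⟨rfl, rfl⟩ | ⟨rfl, rfl⟩ <;> omega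
  rcases period_types hA hM hP with h | h
  · exact key 2 525 (Or.inl ⟨rfl, rfl⟩) h
  · exact key 525 2 (Or.inr ⟨rfl, rfl⟩) h

end Vale.Agent.P043.R2
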