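import Vale.Agent.P043.R2.Exists
import Vale.Agent.P043.R2.NoPer
import Vale.Agent.P043.R2.Cell

/-!
# The tile of `ℝ²`

The equations are interleaved along the first coordinate and every site is thickened by a typed
cell in that coordinate.
-/

namespace Vale.Agent.P043.R2

open MeasureTheory Set

/-- The number of layers. -/
abbrev NL : ℕ := 5000

/-- The layers: the equations and vertical translates of the first one. -/
def layer (j : Fin NL) : Finset Piece :=
  if j.val = 0 then eqn false false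
  else if j.val = 1 then eqn false true
  else if j.val = 2 then eqn true false
  else if j.val = 3 then eqn true true
  else if j.val = 4 then mvd 44100 0 false
  else if j.val = 5 then mvd 44100 0 true
  else if j.val = 6 then mvd 0 1050 false
  else if j.val = 7 then mvd 0 1050 true
  else (eqn false false).image (shiftP ((j.val : ℤ) - 2608))

theorem eqn_site {e t : Bool} : ∀ p ∈ eqn e t, ∀ q ∈ eqn e t, p.1 = q.1 → p = q := by
  intro p hp q hq h
  obtain ⟨s, rfl⟩ := mem_eqn.1 hp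
  obtain ⟨s', rfl⟩ := mem_eqn.1 hq
  rw [site_inj e h]

theorem mvd_site {dn dv : ℤ} {t : Bool} (hdn : dn = 0 ∨ dn = 44100) :
    ∀ p ∈ mvd dn dv t, ∀ q ∈ mvd dn dv t, p.1 = q.1 → p = q := by
  intro p hp q hq h
  rw [mvd_eq, Finset.mem_image] at hp hq
  obtain ⟨s, -, rfl⟩ := hp
  obtain ⟨s', -, rfl⟩ := hq
  rw [mvdP_site_inj dn dv t hdn h]

theorem layer_site (j : Fin NL) : ∀ p ∈ layer j, ∀ q ∈ layer j, p.1 = q.1 → p = q := by
  unfold layer
  split_ifs
  · exact eqn_site
  · exact eqn_site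
  · exact eqn_site
  · exact eqn_site
  · exact mvd_site (Or.inr rfl)
  · exact mvd_site (Or.inr rfl)
  · exact mvd_site (Or.inl rfl)
  · exact mvd_site (Or.inl rfl)
  simp only [Finset.mem_image]
  rintro _ ⟨p, hp, rfl⟩ _ ⟨q, hq, rfl⟩ h
  rw [eqn_site p hp q hq h]

theorem tiles_layer (j : Fin NL) (n : ℤ) (y : ℝ) :
    ∃! w : Pt × Piece, w.1 ∈ A0 ∧ w.2 ∈ layer j ∧ Covers w.1 w.2 n y := by
  unfold layer
  split_ifs
  · exact tiles_eqn _ _ n y
  · exact tiles_eqn _ _ n y
  · exact tiles_eqn _ _ n y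
  · exact tiles_eqn _ _ n y
  · exact tiles_mn _ n y
  · exact tiles_mn _ n y
  · exact tiles_my _ n y
  · exact tiles_my _ n y
  · exact tiles_shift _ n y

/-- The lattice index of a piece of a layer. -/
def idx (j : Fin NL) (n : ℤ) : ℤ := (NL : ℤ) * n + j.val

theorem idx_inj {j j' : Fin NL} {n n' : ℤ} (h : idx j n = idx j' n') : j = j' ∧ n = n' := by
  simp only [idx] at h
  have := j.2; have := j'.2
  refine ⟨Fin.ext ?_, ?_⟩ <;> simp only [NL] at * <;> omega

theorem idx_surj (u : ℤ) : ∃ j n, idx j n = u := by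
  refine ⟨⟨(u % (NL : ℤ)).toNat, by simp only [NL]; omega⟩, u / (NL : ℤ), ?_⟩
  simp only [idx, NL]
  omega

theorem cast_NL : (5000 : ZMod NL) = 0 := ZMod.natCast_self NL

/-- The typed point of a piece of the translate by `a`. -/
noncomputable def pc (a : Fin 2 → ℝ) (j : Fin NL) (p : Piece) : Cell.Pl × ZMod NL :=
  ((Cell.lat (N := NL) (idx j p.1)).1 + a 0, (Cell.lat (N := NL) (idx j p.1)).2)

/-- The slices of the translate by `a` of the tile. -/
def TT (a : Fin 2 → ℝ) : Set (ℝ × Cell.Pl) :=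
  {w | ∃ j, ∃ p ∈ layer j, w.1 - a 1 ∈ band p ∧ w.2 ∈ Cell.cell (pc a j p)}

/-- The vertical coordinate and the horizontal one. -/
def split2 (v : Fin 2 → ℝ) : ℝ × Cell.Pl := (v 1, v 0)

/-- The tile. -/
def tile : Set (Fin 2 → ℝ) := split2 ⁻¹' TT 0

theorem mp_split : MeasurePreserving split2 volume volume := by
  have e : split2 = Prod.swap ∘ (MeasurableEquiv.finTwoArrow (α := ℝ)) := by
    funext v; rfl
  rw [e]
  exact (Measure.measurePreserving_swap).comp (volume_preserving_finTwoArrow ℝ)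

theorem measurableSet_band (p : Piece) : MeasurableSet (band p) :=
  measurableSet_Ico.union measurableSet_Ico

theorem isBounded_band (p : Piece) : Bornology.IsBounded (band p) :=
  (Metric.isBounded_Ico _ _).union (Metric.isBounded_Ico _ _)

theorem measurableSet_TT (a : Fin 2 → ℝ) : MeasurableSet (TT a) := by
  have e : TT a = ⋃ j, ⋃ p ∈ layer j,
      ((fun y : ℝ => y - a 1) ⁻¹' band p) ×ˢ Cell.cell (pc a j p) := by
    ext w
    simp only [TT, mem_iUnion, mem_prod, mem_preimage, mem_ofPred_eq, exists_prop]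
  rw [e]
  exact MeasurableSet.iUnion fun j => Finset.measurableSet_biUnion _ fun p _ =>
    ((measurable_id.sub_const _) (measurableSet_band p)).prod (Cell.measurableSet_cell _)

theorem measurableSet_tile : MeasurableSet tile := mp_split.measurable (measurableSet_TT 0)

theorem image_tile (a : Fin 2 → ℝ) : (fun x => a + x) '' tile = split2 ⁻¹' TT a := by
  rw [image_add_left]
  ext v
  simp only [tile, mem_preimage, TT, mem_ofPred_eq, split2]
  refine exists_congr fun j => exists_congr fun p => and_congr_right fun _ => and_congr ?_ ?_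
  · simp only [Pi.add_apply, Pi.neg_apply, Pi.zero_apply, sub_zero]
    rw [show -a 1 + v 1 = v 1 - a 1 by ring]
  · simp only [pc, Pi.add_apply, Pi.neg_apply, Pi.zero_apply]
    rw [Cell.cell_vadd ((Cell.lat (N := NL) (idx j p.1)).1, _),
      Cell.cell_vadd ((Cell.lat (N := NL) (idx j p.1)).1, _), sub_zero, neg_add_eq_sub]

theorem first_piece : ((0, 0, false) : Piece) ∈ layer (0 : Fin NL) := by
  simpa [layer] using zero_mem_eqn false

theorem Ioo_subset_band : Ioo (0 : ℝ) (1 / 4) ⊆ band ((0, 0, false) : Piece) := by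
  intro z hz
  left
  simp only [brk, th, cond_false, mem_Ico, Int.cast_zero, zero_mul, sub_zero, zero_add]
  exact ⟨hz.1.le, hz.2⟩

theorem volume_TT_pos (a : Fin 2 → ℝ) : 0 < volume (TT a) := by
  refine lt_of_lt_of_le ?_ (measure_mono (s := Ioo (a 1) (a 1 + 1 / 4)
    ×ˢ Cell.cell (pc a 0 (0, 0, false))) fun w hw => ⟨0, _, first_piece, Ioo_subset_band
      ⟨by linarith [hw.1.1], by linarith [hw.1.2]⟩, hw.2⟩)
  rw [Measure.volume_eq_prod, Measure.prod_prod]
  refine ENNReal.mul_pos ?_ (Cell.cell_nonempty_open _).ne'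
  simp [Real.volume_Ioo]

theorem volume_tile_pos : 0 < volume tile := by
  show 0 < volume (split2 ⁻¹' TT 0)
  rw [mp_split.measure_preimage (measurableSet_TT 0).nullMeasurableSet]
  exact volume_TT_pos 0

theorem isBounded_tile : Bornology.IsBounded tile := by
  have hT : Bornology.IsBounded (TT 0) := by
    have e : TT 0 ⊆ ⋃ j, ⋃ p ∈ (layer j : Finset Piece), band p ×ˢ Cell.cell (pc 0 j p) := by
      rintro w ⟨j, p, hp, hI, hc⟩
      simp only [Pi.zero_apply, sub_zero] at hI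
      exact mem_iUnion.2 ⟨j, mem_iUnion₂.2 ⟨p, hp, hI, hc⟩⟩
    exact (Bornology.isBounded_iUnion.2 fun j => (Bornology.isBounded_biUnion_finset _).2 fun p _ =>
      (isBounded_band p).prod (Cell.isBounded_cell _)).subset e
  obtain ⟨R, hR⟩ := hT.exists_norm_le
  refine (Metric.isBounded_closedBall (x := (0 : Fin 2 → ℝ)) (r := max R 0)).subset fun v hv => ?_
  rw [mem_closedBall_zero_iff, pi_norm_le_iff_of_nonneg (le_max_right _ _)]
  have h := hR _ hv
  simp only [split2, Prod.norm_def] at h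
  intro i
  refine le_trans ?_ ((le_max_left R 0).trans' h)
  fin_cases i <;> simp

/-- The lattice translate of a point of `ℤ × ℝ`. -/
def emb (t0 : ℝ) (b : Pt) : Fin 2 → ℝ := ![t0 + (NL : ℝ) * b.1, b.2]

theorem pc_emb (t0 : ℝ) (b : Pt) (j : Fin NL) (p : Piece) :
    pc (emb t0 b) j p =
      ((Cell.lat (N := NL) (idx j (b.1 + p.1))).1 + t0,
        (Cell.lat (N := NL) (idx j (b.1 + p.1))).2) := by
  refine Prod.ext ?_ ?_
  · simp only [pc, Cell.lat, idx, emb]
    simp
    ring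
  · simp only [pc, Cell.lat, idx]
    push_cast
    simp [cast_NL]

theorem tile_tiles : ∃ A : Set (Fin 2 → ℝ), volume (⋃ a ∈ A, (fun x => a + x) '' tile)ᶜ = 0 ∧
    ∀ a ∈ A, ∀ b ∈ A, a ≠ b → volume ((fun x => a + x) '' tile ∩ (fun x => b + x) '' tile) = 0 := by
  have hnull : volume (split2 ⁻¹' (univ ×ˢ Cell.grid)) = 0 := by
    rw [mp_split.measure_preimage ((MeasurableSet.univ.nullMeasurableSet).prod
      (NullMeasurableSet.of_null Cell.volume_grid)),
      Measure.volume_eq_prod, Measure.prod_prod, Cell.volume_grid, mul_zero]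
  refine ⟨emb 0 '' A0, ?_, ?_⟩
  · refine measure_mono_null (fun v hv => ?_) hnull
    by_contra hg
    simp only [mem_preimage, mem_prod, mem_univ, true_and] at hg
    refine hv ?_
    obtain ⟨u, hu, -⟩ := Cell.existsUnique_cell (N := NL) hg
    obtain ⟨j, n, rfl⟩ := idx_surj u
    obtain ⟨⟨b, p⟩, ⟨hb, hp, e1, hI⟩, -⟩ := tiles_layer j n (v 1)
    refine mem_iUnion₂.2 ⟨emb 0 b, ⟨b, hb, rfl⟩, ?_⟩
    rw [image_tile]
    refine ⟨j, p, hp, by simpa [split2, emb] using hI, ?_⟩
    rw [pc_emb, e1, add_zero]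
    exact hu
  · rintro _ ⟨b, hb, rfl⟩ _ ⟨b', hb', rfl⟩ hne
    rw [image_tile, image_tile]
    refine measure_mono_null (fun v hv => ?_) hnull
    by_contra hg
    simp only [mem_preimage, mem_prod, mem_univ, true_and] at hg
    obtain ⟨⟨j, p, hp, hI, hc⟩, j', p', hp', hI', hc'⟩ := hv
    rw [pc_emb, add_zero] at hc hc'
    obtain ⟨u, -, hu⟩ := Cell.existsUnique_cell (N := NL) hg
    obtain ⟨rfl, e1⟩ := idx_inj ((hu _ hc).trans (hu _ hc').symm)
    have := (tiles_layer j _ (v 1)).unique (y₁ := (b, p)) (y₂ := (b', p'))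
      ⟨hb, hp, rfl, by simpa [split2, emb] using hI⟩
      ⟨hb', hp', e1.symm, by simpa [split2, emb] using hI'⟩
    simp only [Prod.mk.injEq] at this
    exact hne (by rw [this.1])

/-- The cells present at height `y`. -/
def sect (A : Set (Fin 2 → ℝ)) (y : ℝ) : Set (Cell.Pl × ZMod NL) :=
  {c | ∃ a ∈ A, ∃ j, ∃ p ∈ layer j, y - a 1 ∈ band p ∧ c = pc a j p}

/-- Heights at which the slices of the translates form a partition. -/
def GoodY (A : Set (Fin 2 → ℝ)) (y : ℝ) : Prop :=
  ∀ᵐ x : Cell.Pl, ∃! a, a ∈ A ∧ (y, x) ∈ TT a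

theorem null_translate (b : Cell.Pl) {S : Set Cell.Pl} (h : volume S = 0) :
    volume ((fun x => x - b) ⁻¹' S) = 0 := by
  rw [(measurePreserving_sub_right volume b).measure_preimage (NullMeasurableSet.of_null h), h]

theorem goodY_ae {A : Set (Fin 2 → ℝ)} (hcov : volume (⋃ a ∈ A, (fun x => a + x) '' tile)ᶜ = 0)
    (hdisj : ∀ a ∈ A, ∀ b ∈ A, a ≠ b →
      volume ((fun x => a + x) '' tile ∩ (fun x => b + x) '' tile) = 0) :
    ∀ᵐ y : ℝ, GoodY A y := by
  simp only [image_tile] at hcov hdisj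
  have hpair : ∀ a ∈ A, ∀ b ∈ A, a ≠ b → volume (TT a ∩ TT b) = 0 := by
    intro a ha b hb hne
    rw [← mp_split.measure_preimage ((measurableSet_TT a).inter (measurableSet_TT b)).nullMeasurableSet]
    exact hdisj a ha b hb hne
  have hcount : A.Countable := by
    have h := Measure.countable_meas_pos_of_disjoint_iUnion₀ (μ := (volume : Measure (ℝ × Cell.Pl)))
      (As := fun a : A => TT a.1) (fun a => (measurableSet_TT _).nullMeasurableSet)
      (fun a b hab => hpair a.1 a.2 b.1 b.2 fun e => hab (Subtype.ext e))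
    have e : {a : A | 0 < volume (TT a.1)} = univ := eq_univ_of_forall fun a => volume_TT_pos a.1
    rw [e, countable_univ_iff] at h
    exact Set.countable_coe_iff.1 h
  have hU : volume (⋃ a ∈ A, TT a)ᶜ = 0 := by
    have hm : MeasurableSet (⋃ a ∈ A, TT a) :=
      MeasurableSet.biUnion hcount fun a _ => measurableSet_TT a
    rw [← mp_split.measure_preimage hm.compl.nullMeasurableSet, preimage_compl]
    simpa only [preimage_iUnion] using hcov
  refine Measure.ae_ae_of_ae_prod (p := fun w => ∃! a, a ∈ A ∧ w ∈ TT a) ?_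
  rw [← Measure.volume_eq_prod]
  have h1 : ∀ᵐ w : ℝ × Cell.Pl, ∀ a ∈ A, ∀ b ∈ A, a ≠ b → ¬ (w ∈ TT a ∧ w ∈ TT b) := by
    refine (ae_ball_iff hcount).2 fun a ha => (ae_ball_iff hcount).2 fun b hb => ?_
    by_cases e : a = b
    · exact Filter.Eventually.of_forall fun w h => absurd e h
    · filter_upwards [measure_eq_zero_iff_ae_notMem.1 (hpair a ha b hb e)] with w hw _ using hw
  filter_upwards [h1, measure_eq_zero_iff_ae_notMem.1 hU] with w hw hw'
  rw [mem_compl_iff, not_not] at hw'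
  obtain ⟨a, ha, haw⟩ := mem_iUnion₂.1 hw'
  exact ⟨a, ⟨ha, haw⟩, fun b ⟨hb, hbw⟩ => by_contra fun hne => hw b hb a ha hne ⟨hbw, haw⟩⟩

variable {A : Set (Fin 2 → ℝ)} {y : ℝ}

theorem pc_unique (hy : GoodY A y) {a b : Fin 2 → ℝ} (ha : a ∈ A) (hb : b ∈ A) {j i : Fin NL}
    {p q : Piece} (hp : p ∈ layer j) (hq : q ∈ layer i)
    (hIa : y - a 1 ∈ band p) (hIb : y - b 1 ∈ band q) (hne : a ≠ b) :
    volume (Cell.cell (pc a j p) ∩ Cell.cell (pc b i q)) = 0 :=
  measure_mono_null (fun x hx (hu : ∃! c, c ∈ A ∧ (y, x) ∈ TT c) =>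
    hne (hu.unique ⟨ha, j, p, hp, hIa, hx.1⟩ ⟨hb, i, q, hq, hIb, hx.2⟩)) (ae_iff.1 hy)

theorem sect_tiling (hy : GoodY A y) : Cell.IsTiling (sect A y) := by
  have hy' : volume {x : Cell.Pl | ¬ ∃! c, c ∈ A ∧ (y, x) ∈ TT c} = 0 := ae_iff.1 hy
  refine ⟨measure_mono_null ?_ hy', ?_⟩
  · intro x hx hu
    refine hx ?_
    obtain ⟨a, ha, j, p, hp, hI, hc⟩ := (hu : ∃! c, c ∈ A ∧ (y, x) ∈ TT c).exists
    exact mem_iUnion₂.2 ⟨pc a j p, ⟨a, ha, j, p, hp, hI, rfl⟩, hc⟩
  · rintro _ ⟨a, ha, j, p, hp, hI, rfl⟩ _ ⟨b, hb, i, q, hq, hI', rfl⟩ hne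
    by_cases hab : a = b
    · subst hab
      refine measure_mono_null (fun x hx => ?_) (null_translate (a 0) Cell.volume_grid)
      by_contra hg
      simp only [pc, mem_inter_iff] at hx
      rw [Cell.cell_vadd (Cell.lat (idx j p.1)), Cell.cell_vadd (Cell.lat (idx i q.1))] at hx
      obtain ⟨u, -, hu⟩ := Cell.existsUnique_cell (N := NL) hg
      exact hne (by rw [pc, pc, (hu _ hx.1).trans (hu _ hx.2).symm])
    · exact pc_unique hy ha hb hp hq hI hI' hab

/-- Two translates on one lattice of the right step. -/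
def Rel (a b : Fin 2 → ℝ) : Prop := ∃ n : ℤ, b 0 = a 0 + (NL : ℝ) * n

theorem Rel.trans {a b c : Fin 2 → ℝ} (h : Rel a b) (h' : Rel b c) : Rel a c := by
  obtain ⟨n, e1⟩ := h
  obtain ⟨n', e2⟩ := h'
  exact ⟨n + n', by rw [e2, e1]; push_cast; ring⟩

theorem Rel.symm {a b : Fin 2 → ℝ} (h : Rel a b) : Rel b a := by
  obtain ⟨n, e1⟩ := h
  exact ⟨-n, by rw [e1]; push_cast; ring⟩

theorem rel_of_sect (hy : GoodY A y) {a b : Fin 2 → ℝ} {c c' : Cell.Pl × ZMod NL}
    (hc : c ∈ sect A y) (hc' : c' ∈ sect A y) {j i : Fin NL} {p q : Piece}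
    (e : c = pc a j p) (e' : c' = pc b i q) : Rel a b := by
  obtain ⟨k, h1, h2⟩ := Cell.lattice (sect_tiling hy) hc hc'
  subst e e'
  simp only [pc, Cell.lat, idx] at h1 h2
  obtain ⟨t, ht⟩ : ((NL : ℤ)) ∣ (((NL : ℤ) * p.1 + j.val + k) - ((NL : ℤ) * q.1 + i.val)) := by
    rw [← ZMod.intCast_zmod_eq_zero_iff_dvd]
    push_cast at h2 ⊢
    rw [h2]; ring
  refine ⟨t, ?_⟩
  have ht' := congrArg (fun z : ℤ => (z : ℝ)) ht
  simp only [NL] at ht' h1 ⊢
  push_cast at ht' h1 ⊢
  linarith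

theorem layer_shift (k : ℤ) (h1 : -2600 ≤ k) (h2 : k ≤ 2391) :
    ∃ j : Fin NL, shiftP k (0, 0, false) ∈ layer j := by
  refine ⟨⟨(k + 2608).toNat, by simp only [NL]; omega⟩, ?_⟩
  simp only [layer]
  rw [if_neg (by omega), if_neg (by omega), if_neg (by omega), if_neg (by omega), if_neg (by omega),
    if_neg (by omega), if_neg (by omega), if_neg (by omega),
    show ((k + 2608).toNat : ℤ) - 2608 = k by omega]
  exact Finset.mem_image_of_mem _ (zero_mem_eqn false)

theorem alive {a : Fin 2 → ℝ} (h : |y - a 1| ≤ 2000) :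
    ∃ j, ∃ p ∈ layer j, y - a 1 ∈ band p := by
  rw [abs_le] at h
  set z := y - a 1
  have h1 := Int.floor_le z
  have h2 := Int.lt_floor_add_one z
  have hk1 : -2000 ≤ ⌊z⌋ := Int.le_floor.2 (by push_cast; linarith)
  have hk2 : ⌊z⌋ ≤ 2000 :=
    Int.lt_add_one_iff.1 (Int.floor_lt.2 (by push_cast; linarith))
  by_cases hf : z < ⌊z⌋ + 1 / 4
  · obtain ⟨j, hj⟩ := layer_shift ⌊z⌋ (by omega) (by omega)
    refine ⟨j, _, hj, Or.inl ?_⟩
    simp only [shiftP, brk, th, cond_false, mem_Ico]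
    push_cast
    constructor <;> linarith
  · push Not at hf
    obtain ⟨j, hj⟩ := layer_shift (⌊z⌋ - 524) (by omega) (by omega)
    refine ⟨j, _, hj, Or.inr ?_⟩
    simp only [shiftP, brk, th, cond_false, mem_Ico]
    push_cast
    constructor <;> linarith

theorem witness (hy : GoodY A y) : ∃ a ∈ A, |y - a 1| ≤ 1575 ∧
    ∀ b ∈ A, (∃ j, ∃ p ∈ layer j, y - b 1 ∈ band p) → Rel a b := by
  have hC := sect_tiling hy
  obtain ⟨⟨z, i⟩, hzi, -⟩ := Cell.exists_filler hC isOpen_univ ⟨0, trivial⟩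
  have h0 := Cell.sub_mem hC hzi i.val
  rw [ZMod.natCast_zmod_val, sub_self] at h0
  obtain ⟨a, ha, j, p, hp, hI, hc⟩ := id h0
  have hj : j = 0 := by
    have h2 := congrArg Prod.snd hc
    simp only [pc, Cell.lat, idx] at h2
    push_cast at h2
    rw [cast_NL, zero_mul, zero_add] at h2
    have h3 := congrArg ZMod.val h2
    rw [ZMod.val_zero, ZMod.val_natCast_of_lt j.2] at h3
    exact Fin.ext h3.symm
  subst hj
  refine ⟨a, ha, ?_, fun b hb ⟨i', q, hq, hIq⟩ =>
    rel_of_sect hy h0 ⟨b, hb, i', q, hq, hIq, rfl⟩ hc rfl⟩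
  obtain ⟨s, rfl⟩ := mem_eqn.1 (show p ∈ eqn false false by simpa [layer] using hp)
  obtain ⟨hb0, hb1⟩ := brk_bounds (p := slotP false false s) (site_range false s).1
    (site_range false s).2.le
  have hv0 : (0 : ℝ) ≤ (slotP false false s).2.1 := by
    exact_mod_cast (vert_range false s).1
  have hv1 : ((slotP false false s).2.1 : ℝ) ≤ 1050 := by
    exact_mod_cast (vert_range false s).2.le
  simp only [band, mem_union, mem_Ico] at hI
  rw [abs_le]
  rcases hI with hI | hI <;> constructor <;> linarith [hI.1, hI.2]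

theorem rel_all (hae : ∀ᵐ y : ℝ, GoodY A y) : ∀ a ∈ A, ∀ b ∈ A, Rel a b := by
  suffices H : ∀ n : ℕ, ∀ a ∈ A, ∀ b ∈ A, |a 1 - b 1| ≤ 2000 + n → Rel a b by
    intro a ha b hb
    obtain ⟨n, hn⟩ := exists_nat_ge |a 1 - b 1|
    exact H n a ha b hb (by linarith)
  intro n
  induction n with
  | zero =>
    intro a ha b hb hab
    rw [Nat.cast_zero, add_zero, abs_le] at hab
    obtain ⟨y, hy, hg⟩ := exists_mem_Ioo hae
      (show (a 1 + b 1) / 2 < (a 1 + b 1) / 2 + 1 by linarith)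
    obtain ⟨c, -, -, hc⟩ := witness hg
    exact (hc a ha (alive (by rw [abs_le]; constructor <;> linarith [hy.1, hy.2]))).symm.trans
      (hc b hb (alive (by rw [abs_le]; constructor <;> linarith [hy.1, hy.2])))
  | succ n ih =>
    intro a ha b hb hab
    by_cases hle : |a 1 - b 1| ≤ 2000 + n
    · exact ih a ha b hb hle
    push_cast at hab
    rw [not_le] at hle
    have hn : (0 : ℝ) ≤ n := Nat.cast_nonneg n
    rcases le_total (a 1) (b 1) with hlt | hlt
    · obtain ⟨y, hy, hg⟩ := exists_mem_Ioo hae (show a 1 + 1600 < a 1 + 1601 by linarith)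
      obtain ⟨c, hc, hcy, hrel⟩ := witness hg
      rw [abs_le] at hcy
      rw [abs_of_nonpos (by linarith)] at hab hle
      exact (hrel a ha (alive (by rw [abs_le]; constructor <;> linarith [hy.1, hy.2]))).symm.trans
        (ih c hc b hb (by rw [abs_le]; constructor <;> linarith [hy.1, hy.2]))
    · obtain ⟨y, hy, hg⟩ := exists_mem_Ioo hae (show a 1 - 1601 < a 1 - 1600 by linarith)
      obtain ⟨c, hc, hcy, hrel⟩ := witness hg
      rw [abs_le] at hcy
      rw [abs_of_nonneg (by linarith)] at hab hle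
      exact (hrel a ha (alive (by rw [abs_le]; constructor <;> linarith [hy.1, hy.2]))).symm.trans
        (ih c hc b hb (by rw [abs_le]; constructor <;> linarith [hy.1, hy.2]))

theorem tiles_sub (hae : ∀ᵐ y : ℝ, GoodY A y) {t : Fin 2 → ℝ} (ht : t ∈ A) (j : Fin NL) :
    TilesSys (layer j) {b | emb (t 0) b ∈ A} := by
  intro n
  filter_upwards [hae] with y hy
  have hall := rel_all hae
  have hmem : ∀ a ∈ A, ∃ b : Pt, a = emb (t 0) b := by
    intro a ha
    obtain ⟨k, e1⟩ := hall t ht a ha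
    refine ⟨(k, a 1), funext fun i => ?_⟩
    fin_cases i <;> simp [emb, e1]
  obtain ⟨b, p, hb, hp, hI, hidx⟩ : ∃ b p, emb (t 0) b ∈ A ∧ p ∈ layer j ∧
      y - b.2 ∈ band p ∧ b.1 + p.1 = n := by
    by_contra hc
    push Not at hc
    set c : Cell.Pl × ZMod NL := ((Cell.lat (idx j n)).1 + t 0, (Cell.lat (idx j n)).2)
    refine (Cell.cell_nonempty_open c).ne' (measure_mono_null (fun x hx => ?_)
      (measure_union_null (sect_tiling hy).cover (null_translate (t 0) Cell.volume_grid)))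
    by_contra hn
    rw [mem_union, not_or, mem_compl_iff, not_not] at hn
    obtain ⟨hn1, hn2⟩ := hn
    obtain ⟨c', ⟨a, ha, i, q, hq, hIq, rfl⟩, hxc⟩ := mem_iUnion₂.1 hn1
    obtain ⟨b, rfl⟩ := hmem a ha
    rw [pc_emb, Cell.cell_vadd (_, _)] at hxc
    rw [Cell.cell_vadd (_, _)] at hx
    obtain ⟨u, -, hu⟩ := Cell.existsUnique_cell (N := NL) hn2
    obtain ⟨rfl, e1⟩ := idx_inj ((hu _ hxc).trans (hu _ hx).symm)
    exact hc b q ha hq (by simpa [emb] using hIq) e1
  refine ⟨(b, p), ⟨hb, hp, hidx, hI⟩, ?_⟩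
  rintro ⟨b', p'⟩ ⟨hb', hp', e1, hI'⟩
  simp only at hb' hp' e1 hI'
  have hpc : pc (emb (t 0) b') j p' = pc (emb (t 0) b) j p := by
    rw [pc_emb, pc_emb, e1, hidx]
  by_cases heq : emb (t 0) b' = emb (t 0) b
  · have h0 := congrFun heq 0
    have h1 := congrFun heq 1
    simp [emb] at h0 h1
    have hbb : b' = b := Prod.ext h0 h1
    subst hbb
    exact Prod.ext rfl (layer_site j p' hp' p hp (by omega))
  · exfalso
    have h := pc_unique hy hb' hb hp' hp (by simpa [emb] using hI') (by simpa [emb] using hI) heq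
    rw [hpc, inter_self] at h
    exact (Cell.cell_nonempty_open _).ne' h

theorem tile_no_periodic (hcov : volume (⋃ a ∈ A, (fun x => a + x) '' tile)ᶜ = 0)
    (hdisj : ∀ a ∈ A, ∀ b ∈ A, a ≠ b →
      volume ((fun x => a + x) '' tile ∩ (fun x => b + x) '' tile) = 0) :
    ¬ ∃ v : Module.Basis (Fin 2) ℝ (Fin 2 → ℝ), ∀ i a, a + v i ∈ A ↔ a ∈ A := by
  rintro ⟨v, hv⟩
  have hae := goodY_ae hcov hdisj
  obtain ⟨t, ht⟩ : A.Nonempty := by
    by_contra h
    rw [not_nonempty_iff_eq_empty] at h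
    subst h
    simp at hcov
  set B : Set Pt := {b | emb (t 0) b ∈ A}
  have hl : ∀ (k : ℕ) (hk : k < NL), TilesSys (layer ⟨k, hk⟩) B := fun k hk => tiles_sub hae ht _
  have hB : Sol B := by
    refine ⟨?_, ?_, ?_⟩
    · intro e s
      cases e <;> cases s
      · simpa [layer] using hl 0 (by norm_num [NL])
      · simpa [layer] using hl 1 (by norm_num [NL])
      · simpa [layer] using hl 2 (by norm_num [NL])
      · simpa [layer] using hl 3 (by norm_num [NL])
    · intro s
      cases s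
      · simpa [layer] using hl 4 (by norm_num [NL])
      · simpa [layer] using hl 5 (by norm_num [NL])
    · intro s
      cases s
      · simpa [layer] using hl 6 (by norm_num [NL])
      · simpa [layer] using hl 7 (by norm_num [NL])
  obtain ⟨i, hi⟩ : ∃ i, v i 0 ≠ 0 := by
    by_contra hc
    push Not at hc
    have h1 := congrFun (v.sum_repr (Pi.single 0 1)) 0
    simp [Finset.sum_apply, hc] at h1
  obtain ⟨n, e1⟩ := rel_all hae t ht (t + v i) ((hv i t).2 ht)
  simp only [Pi.add_apply, add_right_inj] at e1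
  have hn : n ≠ 0 := by
    rintro rfl
    exact hi (by simpa using e1)
  refine no_period hB hn (τ := v i 1) fun n' z => ?_
  show emb (t 0) _ ∈ A ↔ emb (t 0) _ ∈ A
  refine Iff.trans (iff_of_eq (congrArg (· ∈ A) (funext fun k => ?_))) (hv i _)
  fin_cases k <;> simp [emb, e1]; ring

end Vale.Agent.P043.R2
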