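import Vale.Agent.P043.R2.Design

/-!
# The finite checks of the design
-/

namespace Vale.Agent.P043.R2

set_option maxRecDepth 100000 in
theorem check_inv : ∀ r : Plc, invV (grp r) (rank r) = pidx r := by decide +kernel

set_option maxRecDepth 100000 in
theorem check_cls : ∀ r : Plc, cls0 r = true → r.1 = 0 ∧ (hole r = true ↔ rank r = 0) := by
  decide +kernel

set_option maxRecDepth 100000 in
theorem check_band : ∀ (w : Fin 5) (a : Fin 3) (b : Fin 7),
    (kind w a b = true → fixv w a b < 3 ∧ ∀ h : Fin 3,
      (∀ k : Fin 7, prv w a b h k = prv w a b h 0) ∨ chv w a b 0 h.val = chv w a b 1 h.val) ∧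
    (kind w a b = false → fixv w a b < 7 ∧ ∀ k : Fin 7,
      (∀ h : Fin 3, prv w a b h k = prv w a b 0 k) ∨ chv w a b 0 k.val = chv w a b 1 k.val) := by
  decide +kernel

set_option maxRecDepth 100000 in
theorem check_hole : ∀ (a : Fin 3) (b : Fin 7) (i : Fin 2),
    hole (0, a, b, i, 0, 0) = true := by decide +kernel

end Vale.Agent.P043.R2
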