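import Vale.Agent.P043.R2.Defs

/-!
# Elementary facts about the slots of the two equations
-/

namespace Vale.Agent.P043.R2

theorem site_range (e : Bool) (s : Slot) : 0 ≤ site e s ∧ site e s < 44100 := by
  obtain ⟨h, k, c, i⟩ := s
  cases e <;> exact ⟨Int.emod_nonneg _ (by norm_num), Int.emod_lt_of_pos _ (by norm_num)⟩

theorem vert_range (e : Bool) (s : Slot) : 0 ≤ vert e s ∧ vert e s < 1050 := by
  obtain ⟨h, k, c, i⟩ := s
  cases e <;> exact ⟨Int.emod_nonneg _ (by norm_num), Int.emod_lt_of_pos _ (by norm_num)⟩

set_option maxRecDepth 100000 in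
theorem site_inj (e : Bool) : Function.Injective (site e) := by
  revert e
  unfold Function.Injective
  decide +kernel

theorem site_zero : site false 0 = 0 := by decide
theorem vert_zero : vert false 0 = 0 := by decide

theorem slotP_inj (e t : Bool) : Function.Injective (slotP e t) := fun s s' h =>
  site_inj e (congrArg Prod.fst h)

theorem mem_eqn {e t : Bool} {p : Piece} : p ∈ eqn e t ↔ ∃ s, slotP e t s = p := by
  simp [eqn]

theorem zero_mem_eqn (t : Bool) : ((0, 0, t) : Piece) ∈ eqn false t :=
  mem_eqn.2 ⟨0, by simp [slotP, site_zero, vert_zero]⟩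

end Vale.Agent.P043.R2
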