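import Vale.Agent.P043.R2.Check
import Vale.Agent.P043.R2.Slots

/-!
# The combinatorics of the solution

Above every site exactly one kind of point meets all slots of an equation, each colour once.
-/

namespace Vale.Agent.P043.R2

/-- The fixed points meet every colour of the row exactly once, the moving ones none. -/
def OnlySta (e : Bool) (r : ℤ) : Prop :=
  (∀ Q : ℤ, ∃! s : Slot, Sta (r - site e s) (Q - vert e s)) ∧
    ∀ (Q : ℤ) (s : Slot), ¬ Mov (r - site e s) Q

/-- The moving points meet every colour of the row exactly once, the fixed ones none. -/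
def OnlyMov (e : Bool) (r : ℤ) : Prop :=
  (∀ Q : ℤ, ∃! s : Slot, Mov (r - site e s) (Q - vert e s)) ∧
    ∀ (Q : ℤ) (s : Slot), ¬ Sta (r - site e s) Q

theorem resid_val (m : ℕ) [NeZero m] (x : ℤ) : ((resid m x).val : ℤ) = x % (m : ℤ) := by
  have h : (m : ℤ) ≠ 0 := by exact_mod_cast NeZero.ne m
  simp only [resid]
  exact Int.toNat_of_nonneg (Int.emod_nonneg x h)

theorem resid_eq_iff (m : ℕ) [NeZero m] (x y : ℤ) :
    resid m x = resid m y ↔ x % (m : ℤ) = y % (m : ℤ) := by
  rw [← resid_val, ← resid_val, Fin.ext_iff, Int.natCast_inj]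

theorem resid_sub (m : ℕ) [NeZero m] (x : ℤ) (a : Fin m) :
    resid m (x - a.val) = resid m x - a := by
  apply Fin.ext
  rw [← Int.natCast_inj, resid_val, Fin.val_sub, Int.natCast_mod, Nat.cast_add,
    Nat.cast_sub a.isLt.le, resid_val, Int.add_emod_emod]
  rw [show (m : ℤ) - a.val + x = x - a.val + m by ring, Int.add_emod_right]

theorem resid_add (m : ℕ) [NeZero m] (x : ℤ) (a : Fin m) :
    resid m (x + a.val) = resid m x + a := by
  apply Fin.ext
  rw [← Int.natCast_inj, resid_val, Fin.val_add, Int.natCast_mod, Nat.cast_add, resid_val,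
    Int.emod_add_emod]

theorem resid_self (m : ℕ) [NeZero m] (a : Fin m) : resid m (a.val : ℤ) = a := by
  apply Fin.ext
  rw [← Int.natCast_inj, resid_val, Int.emod_eq_of_lt (by omega) (by exact_mod_cast a.isLt)]

set_option maxRecDepth 100000 in
theorem site_false_spec : ∀ s : Slot, site false s % 9 = 3 * (s.1.val : ℤ) ∧
    site false s % 49 = 7 * (s.2.1.val : ℤ) ∧ site false s % 25 = (s.2.2.1.val : ℤ) ∧
    site false s % 4 = 2 * (s.2.2.2.val : ℤ) ∧ vert false s % 2 = (s.2.2.2.val : ℤ) ∧
    vert false s % 3 = (s.1.val : ℤ) ∧ vert false s % 7 = (s.2.1.val : ℤ) ∧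
    vert false s % 25 = (s.2.2.1.val : ℤ) := by decide +kernel

set_option maxRecDepth 100000 in
theorem site_true_spec : ∀ s : Slot, site true s % 9 = (s.1.val : ℤ) ∧
    site true s % 49 = (s.2.1.val : ℤ) ∧ site true s % 25 = 5 * (s.2.2.1.val : ℤ) ∧
    site true s % 4 = (s.2.2.2.val : ℤ) ∧ vert true s % 2 = (s.2.2.2.val : ℤ) ∧
    vert true s % 3 = 0 ∧ vert true s % 7 = 0 ∧ vert true s % 25 = 0 := by decide +kernel

theorem cls0_iff (p : Plc) : cls0 p = true ↔ clsX p = 0 ∧ clsY p = 0 := by
  simp [cls0, Bool.and_eq_true]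

theorem hole_iff (p : Plc) :
    hole p = true ↔ p.1 = 0 ∧ p.2.2.2.2.1 = 0 ∧ p.2.2.2.2.2 = 0 ∧ cls0 p = true := by
  obtain ⟨w, a, b, i, h, k⟩ := p
  simp [hole, Bool.and_eq_true, and_assoc]

theorem pidx_inj : Function.Injective pidx := by
  rintro ⟨w, a, b, i, h, k⟩ ⟨w', a', b', i', h', k'⟩ e
  simp only [pidx] at e
  simp only [Prod.mk.injEq, Fin.ext_iff]
  omega

/-- A placement is determined by its group and rank, and every group has all five ranks. -/
theorem grpRank_bij : Function.Bijective fun p : Plc => (grp p, rank p) := by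
  rw [Fintype.bijective_iff_injective_and_card]
  refine ⟨fun p q h => pidx_inj ?_, by simp [Fintype.card_prod]⟩
  simp only [Prod.mk.injEq] at h
  rw [← check_inv p, ← check_inv q, h.1, h.2]

/-! ### Arithmetic of the residues of a slot -/

theorem dvd_iff_mods (n : ℤ) : (11025 : ℤ) ∣ n ↔ n % 9 = 0 ∧ n % 49 = 0 ∧ n % 25 = 0 := by
  refine ⟨fun h => ⟨?_, ?_, ?_⟩, fun ⟨h1, h2, h3⟩ => ?_⟩
  · exact Int.emod_eq_zero_of_dvd (Dvd.dvd.trans (by norm_num) h)
  · exact Int.emod_eq_zero_of_dvd (Dvd.dvd.trans (by norm_num) h)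
  · exact Int.emod_eq_zero_of_dvd (Dvd.dvd.trans (by norm_num) h)
  · have h9 := Int.dvd_of_emod_eq_zero h1
    have h49 := Int.dvd_of_emod_eq_zero h2
    have h25 := Int.dvd_of_emod_eq_zero h3
    have a : IsCoprime (9 : ℤ) 49 := Int.isCoprime_iff_gcd_eq_one.2 (by norm_num)
    have b : IsCoprime ((9 : ℤ) * 49) 25 := Int.isCoprime_iff_gcd_eq_one.2 (by norm_num)
    have := b.mul_dvd (a.mul_dvd h9 h49) h25
    norm_num at this
    exact this

theorem sta_iff (e : Bool) (r Q : ℤ) (s : Slot) :
    Sta (r - site e s) (Q - vert e s) ↔ r % 9 = site e s % 9 ∧ r % 49 = site e s % 49 ∧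
      r % 25 = site e s % 25 ∧ Q % 2 = vert e s % 2 := by
  simp only [Sta, dvd_iff_mods, Int.emod_eq_emod_iff_emod_sub_eq_zero (n := 9),
    Int.emod_eq_emod_iff_emod_sub_eq_zero (n := 49), Int.emod_eq_emod_iff_emod_sub_eq_zero (n := 25),
    Int.emod_eq_emod_iff_emod_sub_eq_zero (n := 2), ← Int.dvd_iff_emod_eq_zero, and_assoc]

theorem sta_site {e : Bool} {r P : ℤ} {s : Slot} (h : Sta (r - site e s) P) :
    r % 9 = site e s % 9 ∧ r % 49 = site e s % 49 ∧ r % 25 = site e s % 25 := by
  obtain ⟨a, b, c⟩ := (dvd_iff_mods _).1 h.1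
  exact ⟨Int.emod_eq_emod_iff_emod_sub_eq_zero.2 a, Int.emod_eq_emod_iff_emod_sub_eq_zero.2 b,
    Int.emod_eq_emod_iff_emod_sub_eq_zero.2 c⟩

theorem fin_eq_resid (m : ℕ) [NeZero m] (a : Fin m) (x : ℤ) (h : (a.val : ℤ) = x % (m : ℤ)) :
    a = resid m x := by
  apply Fin.ext
  rw [← Int.natCast_inj, resid_val, h]

theorem arith5 {r S c : ℤ} (h : S % 25 = c) : (r - S) % 5 = (r - c) % 5 := by omega
theorem arith2 {r S i : ℤ} (h : S % 4 = 2 * i) :
    (r - S) % 4 / 2 % 2 = (r % 4 / 2 - i) % 2 ∧ (r - S) % 2 = r % 2 := by omega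
theorem arith3 {r S x : ℤ} (h : S % 9 = 3 * x) :
    (r - S) % 9 / 3 % 3 = (r % 9 / 3 - x) % 3 ∧ (r - S) % 3 = r % 3 := by omega
theorem arith7 {r S x : ℤ} (h : S % 49 = 7 * x) :
    (r - S) % 49 / 7 % 7 = (r % 49 / 7 - x) % 7 ∧ (r - S) % 7 = r % 7 := by omega
theorem arith25 {r S Q V c : ℤ} (h : S % 25 = c) (h' : V % 25 = c) :
    (Q - V - (r - S)) % 25 = (Q - r) % 25 := by omega
theorem arith25c {r S c : ℤ} (h : S % 25 = c) (h0 : 0 ≤ c) (h5 : c < 5) (hw : (r - S) % 5 = 0) :
    (r - S) % 25 / 5 = r % 25 / 5 := by omega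
theorem arithT2 {r S i : ℤ} (h : S % 4 = i) :
    (r - S) % 4 / 2 % 2 = (r - i) % 4 / 2 % 2 ∧ (r - S) % 2 = (r - i) % 2 := by omega
theorem arithT3 {r S x : ℤ} (h : S % 9 = x) :
    (r - S) % 9 / 3 % 3 = (r - x) % 9 / 3 % 3 ∧ (r - S) % 3 = (r - x) % 3 := by omega
theorem arithT7 {r S x : ℤ} (h : S % 49 = x) :
    (r - S) % 49 / 7 % 7 = (r - x) % 49 / 7 % 7 ∧ (r - S) % 7 = (r - x) % 7 := by omega
theorem arithT5 {r S c : ℤ} (h : S % 25 = 5 * c) : (r - S) % 5 = r % 5 := by omega
theorem arithT25 {r S c : ℤ} (h : S % 25 = 5 * c) :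
    (r - S) % 25 / 5 = (r % 25 / 5 - c) % 5 := by omega
theorem arithT25' {r S Q V c : ℤ} (h : S % 25 = 5 * c) (h' : V % 25 = 0) :
    (Q - V - (r - S)) % 25 / 5 = ((Q - r) % 25 / 5 + c) % 5 := by omega
theorem staF3 {r : ℤ} (h : r % 3 = 0) : r % 9 = 3 * (r % 9 / 3 % 3) := by omega
theorem staF7 {r : ℤ} (h : r % 7 = 0) : r % 49 = 7 * (r % 49 / 7 % 7) := by omega
theorem staF5 {r : ℤ} (h : r % 25 < 5) : r % 25 = r % 5 := by omega
theorem staT3 {r : ℤ} (h : r % 9 < 3) : r % 9 = r % 9 % 3 := by omega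
theorem staT7 {r : ℤ} (h : r % 49 < 7) : r % 49 = r % 49 % 7 := by omega
theorem staT5 {r : ℤ} (h : r % 5 = 0) : r % 25 = 5 * (r % 25 / 5 % 5) := by omega
theorem staFh {r x : ℤ} (g : r % 9 = 3 * x) (h0 : 0 ≤ x) (h1 : x < 3) : x = r % 9 / 3 % 3 := by omega
theorem staFk {r x : ℤ} (g : r % 49 = 7 * x) (h0 : 0 ≤ x) (h1 : x < 7) : x = r % 49 / 7 % 7 := by
  omega
theorem staFc {r x : ℤ} (g : r % 25 = x) (h1 : x < 5) : x = r % 5 := by omega
theorem staTh {r x : ℤ} (g : r % 9 = x) (h1 : x < 3) : x = r % 9 % 3 := by omega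
theorem staTk {r x : ℤ} (g : r % 49 = x) (h1 : x < 7) : x = r % 49 % 7 := by omega
theorem staTc {r x : ℤ} (g : r % 25 = 5 * x) (h1 : x < 5) : x = r % 25 / 5 % 5 := by omega
theorem lt5_of {x : ℤ} (h0 : 0 ≤ x) (h1 : x < 25) (h : x / 5 % 5 = 0) : x < 5 := by omega
theorem lt3_of {r h : ℤ} (e : (r - h) % 9 / 3 % 3 = 0) (e' : r % 3 = h) : r % 9 < 3 := by
  have a : 0 ≤ (r - h) % 9 := Int.emod_nonneg _ (by norm_num)
  have b : (r - h) % 9 < 9 := Int.emod_lt_of_pos _ (by norm_num)
  have c : (r - h) % 9 = 0 := by omega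
  omega
theorem lt7_of {r k : ℤ} (e : (r - k) % 49 / 7 % 7 = 0) (e' : r % 7 = k) : r % 49 < 7 := by
  have a : 0 ≤ (r - k) % 49 := Int.emod_nonneg _ (by norm_num)
  have b : (r - k) % 49 < 49 := Int.emod_lt_of_pos _ (by norm_num)
  have c : (r - k) % 49 = 0 := by omega
  omega
theorem staRF {r h k c : ℤ} (g1 : r % 9 = 3 * h) (g2 : r % 49 = 7 * k) (g3 : r % 25 = c) (hc : c < 5) :
    r % 3 = 0 ∧ r % 7 = 0 ∧ r % 25 < 5 := ⟨by omega, by omega, by omega⟩
theorem staRT {r h k c : ℤ} (g1 : r % 9 = h) (g2 : r % 49 = k) (g3 : r % 25 = 5 * c) (hh : h < 3)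
    (hk : k < 7) : r % 9 < 3 ∧ r % 49 < 7 ∧ r % 5 = 0 := ⟨by omega, by omega, by omega⟩
theorem sub_emod_of_emod_zero {Q V m : ℤ} (h : V % m = 0) : (Q - V) % m = Q % m := by
  rw [Int.sub_emod, h, sub_zero, Int.emod_emod]
theorem sub_emod_of_emod {Q V m x : ℤ} (h : V % m = x) : (Q - V) % m = (Q - x) % m := by
  rw [← h, Int.sub_emod, Int.sub_emod Q (V % m) m, Int.emod_emod]

/-! ### The first equation -/

theorem comb_false (r : ℤ) : OnlySta false r ∨ OnlyMov false r := by
  -- residues of the site and colour of a slot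
  have hN : ∀ (Q : ℤ) (s : Slot), plc (r - site false s) (Q - vert false s) =
      (resid 5 r - s.2.2.1, resid 3 Q - s.1, resid 7 Q - s.2.1, resid 2 (r % 4 / 2) - s.2.2.2,
        resid 3 (r % 9 / 3) - s.1, resid 7 (r % 49 / 7) - s.2.1) := by
    intro Q s
    obtain ⟨h1, h2, h3, h4, -, h6, h7, -⟩ := site_false_spec s
    simp only [plc, Prod.mk.injEq, ← resid_sub, resid_eq_iff, Nat.cast_ofNat]
    exact ⟨arith5 h3, sub_emod_of_emod h6, sub_emod_of_emod h7, (arith2 h4).1, (arith3 h1).1,
      (arith7 h2).1⟩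
  have hres : ∀ (Q : ℤ) (s : Slot), resid 3 (r - site false s) = resid 3 r ∧
      resid 7 (r - site false s) = resid 7 r ∧ resid 2 (r - site false s) = resid 2 r ∧
      (Q - vert false s - (r - site false s)) % 25 = (Q - r) % 25 := by
    intro Q s
    obtain ⟨h1, h2, h3, h4, -, -, -, h8⟩ := site_false_spec s
    simp only [resid_eq_iff, Nat.cast_ofNat]
    exact ⟨(arith3 h1).2, (arith7 h2).2, (arith2 h4).2, arith25 h3 h8⟩
  by_cases hr : r % 3 = 0 ∧ r % 7 = 0 ∧ r % 25 < 5
  · left
    obtain ⟨r3, r7, r25⟩ := hr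
    refine ⟨fun Q => ⟨(resid 3 (r % 9 / 3), resid 7 (r % 49 / 7), resid 5 (r), resid 2 Q), ?_, ?_⟩, ?_⟩
    · obtain ⟨h1, h2, h3, -, h5, -⟩ :=
        site_false_spec (resid 3 (r % 9 / 3), resid 7 (r % 49 / 7), resid 5 (r), resid 2 Q)
      simp only [resid_val, Nat.cast_ofNat] at h1 h2 h3 h5
      rw [sta_iff, h1, h2, h3, h5]
      exact ⟨staF3 r3, staF7 r7, staF5 r25, rfl⟩
    · rintro ⟨h, k, c, i⟩ hs
      obtain ⟨h1, h2, h3, -, h5, -⟩ := site_false_spec (h, k, c, i)
      simp only at h1 h2 h3 h5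
      rw [sta_iff, h1, h2, h3, h5] at hs
      obtain ⟨g1, g2, g3, g4⟩ := hs
      simp only [Prod.mk.injEq]
      refine ⟨fin_eq_resid _ _ _ ?_, fin_eq_resid _ _ _ ?_, fin_eq_resid _ _ _ ?_,
        fin_eq_resid _ _ _ ?_⟩ <;> simp only [Nat.cast_ofNat]
      · exact staFh g1 (Int.natCast_nonneg _) (by exact_mod_cast h.isLt)
      · exact staFk g2 (Int.natCast_nonneg _) (by exact_mod_cast k.isLt)
      · exact staFc g3 (by exact_mod_cast c.isLt)
      · exact g4.symm
    · intro Q s hM
      obtain ⟨hx, hy, hh, -, hj⟩ := hM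
      obtain ⟨e3, e7, -, -⟩ := hres Q s
      set p := plc (r - site false s) Q
      have hc0 : cls0 p = true := by
        rw [cls0_iff, hx, hy, e3, e7, ← resid_self 3 0, ← resid_self 7 0, resid_eq_iff, resid_eq_iff]
        simp [r3, r7]
      obtain ⟨hw, hh0⟩ := check_cls p hc0
      obtain ⟨-, -, h3, -⟩ := site_false_spec s
      have hw' : ((resid 5 (r - site false s)).val : ℤ) = 0 := by
        simp only [p, plc] at hw
        simp [hw]
      rw [resid_val] at hw'
      have hz : (r - site false s) % 25 / 5 = 0 := by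
        have := s.2.2.1.isLt
        simp only [Nat.cast_ofNat] at hw'
        rw [arith25c h3 (Int.natCast_nonneg _) (by omega) hw']
        omega
      rw [if_pos hc0, hz] at hj
      have : hole p = true := hh0.2 (Fin.ext (by simpa using hj))
      simp [this] at hh
  · right
    refine ⟨fun Q => ?_, ?_⟩
    · set j : Fin 5 := if r % 3 = 0 ∧ r % 7 = 0 then resid 5 (r % 25 / 5)
        else resid 5 ((Q - r) % 25 / 5) with hjd
      set G : Grp := (resid 3 r, resid 7 r, resid 2 r, resid 3 Q - resid 3 (r % 9 / 3),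
        resid 7 Q - resid 7 (r % 49 / 7)) with hG
      have key : ∀ s : Slot, Mov (r - site false s) (Q - vert false s) ↔
          grp (plc (r - site false s) (Q - vert false s)) = G ∧
            rank (plc (r - site false s) (Q - vert false s)) = j := by
        intro s
        obtain ⟨e3, e7, e2, e25⟩ := hres Q s
        obtain ⟨-, -, h3, -⟩ := site_false_spec s
        have hp := hN Q s
        simp only [Mov, e3, e7, e2, e25]
        set p := plc (r - site false s) (Q - vert false s) with hpd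
        have hgrp : grp p = G ↔ clsX p = resid 3 r ∧ clsY p = resid 7 r ∧ par p = resid 2 r := by
          rw [hp, hG]
          simp only [grp, Prod.mk.injEq, sub_sub_sub_cancel_right, and_true]
        have hc : clsX p = resid 3 r → clsY p = resid 7 r →
            (cls0 p = true ↔ r % 3 = 0 ∧ r % 7 = 0) := by
          intro hx hy
          rw [cls0_iff, hx, hy, ← resid_self 3 0, ← resid_self 7 0, resid_eq_iff, resid_eq_iff]
          simp
        have hrank : ∀ X : ℤ, 0 ≤ X → X < 5 → (((rank p).val : ℤ) = X ↔ rank p = resid 5 X) := by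
          intro X h0 h5
          rw [Fin.ext_iff, ← Int.natCast_inj, resid_val, Nat.cast_ofNat, Int.emod_eq_of_lt h0 h5]
        have hz : cls0 p = true → (r - site false s) % 25 / 5 = r % 25 / 5 := by
          intro hc'
          obtain ⟨hw, -⟩ := check_cls p hc'
          have hw' : ((resid 5 (r - site false s)).val : ℤ) = 0 := by
            simp only [hpd, plc] at hw
            simp [hw]
          rw [resid_val] at hw'
          have := s.2.2.1.isLt
          simp only [Nat.cast_ofNat] at hw'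
          exact arith25c h3 (Int.natCast_nonneg _) (by omega) hw'
        constructor
        · rintro ⟨hx, hy, -, hpar, hj⟩
          refine ⟨hgrp.2 ⟨hx, hy, hpar⟩, ?_⟩
          by_cases hc' : cls0 p = true
          · rw [if_pos hc', hz hc'] at hj
            rw [hjd, if_pos ((hc hx hy).1 hc')]
            exact (hrank _ (by omega) (by omega)).1 hj
          · rw [if_neg hc'] at hj
            rw [hjd, if_neg fun h => hc' ((hc hx hy).2 h)]
            exact (hrank _ (by omega) (by omega)).1 hj
        · rintro ⟨hg, hj⟩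
          obtain ⟨hx, hy, hpar⟩ := hgrp.1 hg
          refine ⟨hx, hy, ?_, hpar, ?_⟩
          · by_contra hne
            rw [Bool.not_eq_false] at hne
            obtain ⟨-, -, -, hc'⟩ := (hole_iff p).1 hne
            have h37 := (hc hx hy).1 hc'
            have h0 := (check_cls p hc').2.1 hne
            rw [hj, hjd, if_pos h37, Fin.ext_iff, ← Int.natCast_inj, resid_val] at h0
            simp only [Fin.val_zero, Nat.cast_zero, Nat.cast_ofNat] at h0
            exact hr ⟨h37.1, h37.2, lt5_of (Int.emod_nonneg _ (by norm_num))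
              (Int.emod_lt_of_pos _ (by norm_num)) h0⟩
          · by_cases hc' : cls0 p = true
            · rw [if_pos hc', hz hc']
              rw [hjd, if_pos ((hc hx hy).1 hc')] at hj
              exact (hrank _ (by omega) (by omega)).2 hj
            · rw [if_neg hc']
              rw [hjd, if_neg fun h => hc' ((hc hx hy).2 h)] at hj
              exact (hrank _ (by omega) (by omega)).2 hj
      obtain ⟨⟨w, a, b, i', hh, kk⟩, hp0⟩ := grpRank_bij.2 (G, j)
      obtain ⟨hg0, hr0⟩ := Prod.mk.inj hp0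
      set s0 : Slot := (resid 3 (r % 9 / 3) - hh, resid 7 (r % 49 / 7) - kk, resid 5 r - w,
        resid 2 (r % 4 / 2) - i') with hs0
      have hp : plc (r - site false s0) (Q - vert false s0) = (w, a, b, i', hh, kk) := by
        have ea : a - hh = resid 3 Q - resid 3 (r % 9 / 3) := congrArg (fun g : Grp => g.2.2.2.1) hg0
        have eb : b - kk = resid 7 Q - resid 7 (r % 49 / 7) := congrArg (fun g : Grp => g.2.2.2.2) hg0
        rw [hN, hs0]
        simp only [sub_sub_cancel, Prod.mk.injEq, true_and, and_true]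
        refine ⟨?_, ?_⟩
        · rw [← sub_add_cancel a hh, ea]; abel
        · rw [← sub_add_cancel b kk, eb]; abel
      refine ⟨s0, (key s0).2 ?_, fun s hs => ?_⟩
      · rw [hp]; exact ⟨hg0, hr0⟩
      · have h := grpRank_bij.1 (a₁ := plc (r - site false s) (Q - vert false s))
          (a₂ := (w, a, b, i', hh, kk)) (Prod.ext (((key s).1 hs).1.trans hg0.symm)
            (((key s).1 hs).2.trans hr0.symm))
        rw [hN, Prod.mk.injEq, Prod.mk.injEq, Prod.mk.injEq, Prod.mk.injEq, Prod.mk.injEq] at h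
        obtain ⟨e1, -, -, e4, e5, e6⟩ := h
        rw [hs0, ← e1, ← e4, ← e5, ← e6]
        simp only [sub_sub_cancel]
    · intro Q s hs
      obtain ⟨h1, h2, h3, -⟩ := site_false_spec s
      obtain ⟨g1, g2, g3⟩ := sta_site hs
      rw [h1] at g1
      rw [h2] at g2
      rw [h3] at g3
      exact hr (staRF g1 g2 g3 (Int.ofNat_lt.2 s.2.2.1.isLt))

/-! ### The second equation -/

theorem comb_true (r : ℤ) : OnlySta true r ∨ OnlyMov true r := by
  set H : Fin 3 → Fin 3 := fun h => resid 3 ((r - h.val) % 9 / 3)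
  set K : Fin 7 → Fin 7 := fun k => resid 7 ((r - k.val) % 49 / 7)
  set I : Fin 2 → Fin 2 := fun i => resid 2 ((r - i.val) % 4 / 2)
  set w : Fin 5 := resid 5 r
  set P : Fin 3 → Fin 7 → Fin 2 → Fin 3 → Fin 7 → Plc :=
    fun a b j h k => (w, a, b, j, H h, K k)
  -- the rectangles of a layer, label and copy tile the columns
  have cover : ∀ a b j, ∃! hk : Fin 3 × Fin 7, clsX (P a b j hk.1 hk.2) = resid 3 r - hk.1 ∧
      clsY (P a b j hk.1 hk.2) = resid 7 r - hk.2 := by
    intro a b j
    cases hkd : kind w a b with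
    | true =>
      set X : Fin 3 := ⟨fixv w a b % 3, Nat.mod_lt _ (by norm_num)⟩
      set Y : Fin 3 → Fin 7 :=
        fun h => ⟨chv w a b j (H h).val % 7, Nat.mod_lt _ (by norm_num)⟩
      have hx : ∀ h k, clsX (P a b j h k) = X := fun h k => by simp [P, clsX, hkd, X]
      have hy : ∀ h k, clsY (P a b j h k) = Y h := fun h k => by simp [P, clsY, hkd, Y]
      refine ⟨(resid 3 r - X, resid 7 r - Y (resid 3 r - X)), ?_, ?_⟩
      · simp [hx, hy]
      · rintro ⟨h, k⟩ ⟨e1, e2⟩
        simp only [hx, hy] at e1 e2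
        have : h = resid 3 r - X := by rw [e1, sub_sub_cancel]
        subst this
        rw [e2, sub_sub_cancel]
    | false =>
      set Y : Fin 7 := ⟨fixv w a b % 7, Nat.mod_lt _ (by norm_num)⟩
      set X : Fin 7 → Fin 3 :=
        fun k => ⟨chv w a b j (K k).val % 3, Nat.mod_lt _ (by norm_num)⟩
      have hy : ∀ h k, clsY (P a b j h k) = Y := fun h k => by simp [P, clsY, hkd, Y]
      have hx : ∀ h k, clsX (P a b j h k) = X k := fun h k => by simp [P, clsX, hkd, X]
      refine ⟨(resid 3 r - X (resid 7 r - Y), resid 7 r - Y), ?_, ?_⟩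
      · simp [hx, hy]
      · rintro ⟨h, k⟩ ⟨e1, e2⟩
        simp only [hx, hy] at e1 e2
        have : k = resid 7 r - Y := by rw [e2, sub_sub_cancel]
        subst this
        rw [e1, sub_sub_cancel]
  -- residues of the site and colour of a slot
  have hN : ∀ (Q : ℤ) (h : Fin 3) (k : Fin 7) (c : Fin 5) (i : Fin 2),
      plc (r - site true (h, k, c, i)) Q = P (resid 3 Q) (resid 7 Q) (I i) h k ∧
      resid 3 (r - site true (h, k, c, i)) = resid 3 r - h ∧
      resid 7 (r - site true (h, k, c, i)) = resid 7 r - k ∧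
      resid 2 (r - site true (h, k, c, i)) = resid 2 r - i := by
    intro Q h k c i
    obtain ⟨h1, h2, h3, h4, -⟩ := site_true_spec (h, k, c, i)
    simp only at h1 h2 h3 h4
    simp only [plc, P, H, K, I, w, Prod.mk.injEq, ← resid_sub, resid_eq_iff, Nat.cast_ofNat,
      true_and]
    exact ⟨⟨arithT5 h3, (arithT2 h4).1, (arithT3 h1).1, (arithT7 h2).1⟩, (arithT3 h1).2,
      (arithT7 h2).2, (arithT2 h4).2⟩
  by_cases hr : r % 9 < 3 ∧ r % 49 < 7 ∧ r % 5 = 0
  · left
    obtain ⟨r9, r49, r5⟩ := hr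
    refine ⟨fun Q => ⟨(resid 3 (r % 9), resid 7 (r % 49), resid 5 (r % 25 / 5), resid 2 Q), ?_, ?_⟩, ?_⟩
    · obtain ⟨h1, h2, h3, -, h5, -⟩ :=
        site_true_spec (resid 3 (r % 9), resid 7 (r % 49), resid 5 (r % 25 / 5), resid 2 Q)
      simp only [resid_val, Nat.cast_ofNat] at h1 h2 h3 h5
      rw [sta_iff, h1, h2, h3, h5]
      exact ⟨staT3 r9, staT7 r49, staT5 r5, rfl⟩
    · rintro ⟨h, k, c, i⟩ hs
      obtain ⟨h1, h2, h3, -, h5, -⟩ := site_true_spec (h, k, c, i)
      simp only at h1 h2 h3 h5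
      rw [sta_iff, h1, h2, h3, h5] at hs
      obtain ⟨g1, g2, g3, g4⟩ := hs
      simp only [Prod.mk.injEq]
      refine ⟨fin_eq_resid _ _ _ ?_, fin_eq_resid _ _ _ ?_, fin_eq_resid _ _ _ ?_,
        fin_eq_resid _ _ _ ?_⟩ <;> simp only [Nat.cast_ofNat]
      · exact staTh g1 (by exact_mod_cast h.isLt)
      · exact staTk g2 (by exact_mod_cast k.isLt)
      · exact staTc g3 (by exact_mod_cast c.isLt)
      · exact g4.symm
    · rintro Q ⟨h, k, c, i⟩ ⟨hx, hy, hh, -, -⟩
      obtain ⟨hp, e3, e7, -⟩ := hN Q h k c i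
      rw [hp] at hx hy hh
      rw [e3] at hx
      rw [e7] at hy
      set h0 : Fin 3 := resid 3 (r % 9) with hh0
      set k0 : Fin 7 := resid 7 (r % 49) with hk0
      have eh : ((h0.val : ℤ)) = r % 9 := by rw [hh0, resid_val]; omega
      have ek : ((k0.val : ℤ)) = r % 49 := by rw [hk0, resid_val]; omega
      have hw0 : w = 0 := by
        apply Fin.ext; rw [← Int.natCast_inj, resid_val]; simp [r5]
      have hH : H h0 = 0 := by
        apply Fin.ext; rw [← Int.natCast_inj, resid_val]; simp [eh]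
      have hK : K k0 = 0 := by
        apply Fin.ext; rw [← Int.natCast_inj, resid_val]; simp [ek]
      have hol : hole (P (resid 3 Q) (resid 7 Q) (I i) h0 k0) = true := by
        simp only [P, hw0, hH, hK]
        exact check_hole _ _ _
      obtain ⟨-, -, -, hc⟩ := (hole_iff _).1 hol
      obtain ⟨hcx, hcy⟩ := (cls0_iff _).1 hc
      have h30 : resid 3 r - h0 = 0 := by
        rw [sub_eq_zero, hh0, resid_eq_iff]; omega
      have h70 : resid 7 r - k0 = 0 := by
        rw [sub_eq_zero, hk0, resid_eq_iff]; omega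
      obtain ⟨_, -, hu⟩ := cover (resid 3 Q) (resid 7 Q) (I i)
      have := (hu (h, k) ⟨hx, hy⟩).trans (hu (h0, k0) ⟨by rw [hcx, h30], by rw [hcy, h70]⟩).symm
      simp only [Prod.mk.injEq] at this
      rw [this.1, this.2, hol] at hh
      simp at hh
  · right
    refine ⟨fun Q => ?_, ?_⟩
    · set a := resid 3 Q
      set b := resid 7 Q
      choose hk hhk huk using fun j => cover a b j
      set p : Fin 2 → Plc := fun j => P a b j (hk j).1 (hk j).2
      have hnh : ∀ j, hole (p j) = false := by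
        intro j
        by_contra hne
        rw [Bool.not_eq_false] at hne
        obtain ⟨hw, hH, hK, hc⟩ := (hole_iff _).1 hne
        obtain ⟨hcx, hcy⟩ := (cls0_iff _).1 hc
        obtain ⟨ex, ey⟩ := hhk j
        change clsX (p j) = _ at ex
        change clsY (p j) = _ at ey
        rw [hcx, eq_comm, sub_eq_zero] at ex
        rw [hcy, eq_comm, sub_eq_zero] at ey
        simp only [p, P, H, K, w, Fin.ext_iff, ← Int.natCast_inj, resid_val, Fin.val_zero,
          Nat.cast_zero, Nat.cast_ofNat] at hw hH hK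
        simp only [Fin.ext_iff, ← Int.natCast_inj, resid_val, Nat.cast_ofNat] at ex ey
        exact hr ⟨lt3_of hH ex, lt7_of hK ey, hw⟩
      have hpar : ∀ j, par (p j) = par (p 0) := by
        intro j
        have e0 : ∀ j, par (p j) = prv w a b (H (hk j).1) (K (hk j).2) := fun j => by
          show (bif hole (p j) then _ else _) = _
          rw [hnh j]
          rfl
        rw [e0, e0]
        have hj : j = 0 ∨ j = 1 := by omega
        rcases hj with rfl | rfl
        · rfl
        cases hkd : kind w a b with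
        | true =>
          have hf : (hk 1).1 = (hk 0).1 := by
            have e1 := (hhk 1).1
            have e2 := (hhk 0).1
            simp only [P, clsX, hkd, cond_true] at e1 e2
            have := e1.symm.trans e2
            rwa [sub_right_inj] at this
          rw [hf]
          rcases ((check_band w a b).1 hkd).2 (H (hk 0).1) with h | h
          · rw [h, h (K (hk 0).2)]
          · have e1 := (hhk 1).2
            have e2 := (hhk 0).2
            simp only [P, clsY, hkd, cond_true, hf, ← h] at e1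
            simp only [P, clsY, hkd, cond_true] at e2
            have := e1.symm.trans e2
            rw [sub_right_inj] at this
            rw [this]
        | false =>
          have hf : (hk 1).2 = (hk 0).2 := by
            have e1 := (hhk 1).2
            have e2 := (hhk 0).2
            simp only [P, clsY, hkd, cond_false] at e1 e2
            have := e1.symm.trans e2
            rwa [sub_right_inj] at this
          rw [hf]
          rcases ((check_band w a b).2 hkd).2 (K (hk 0).2) with h | h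
          · rw [h, h (H (hk 0).1)]
          · have e1 := (hhk 1).1
            have e2 := (hhk 0).1
            simp only [P, clsX, hkd, cond_false, hf, ← h] at e1
            simp only [P, clsX, hkd, cond_false] at e2
            have := e1.symm.trans e2
            rw [sub_right_inj] at this
            rw [this]
      set i0 : Fin 2 := resid 2 r - par (p 0)
      set j0 : Fin 2 := I i0
      set c0 : Fin 5 := if cls0 (p j0) then resid 5 (r % 25 / 5) - rank (p j0)
        else rank (p j0) - resid 5 ((Q - r) % 25 / 5)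
      have key : ∀ h k c i, Mov (r - site true (h, k, c, i)) (Q - vert true (h, k, c, i)) ↔
          (h, k) = hk (I i) ∧ par (p (I i)) = resid 2 r - i ∧
            rank (p (I i)) = if cls0 (p (I i)) then resid 5 (r % 25 / 5) - c
              else resid 5 ((Q - r) % 25 / 5) + c := by
        intro h k c i
        obtain ⟨h1, h2, h3, h4, -, h6, h7, h8⟩ := site_true_spec (h, k, c, i)
        obtain ⟨hp, e3, e7, e2⟩ := hN (Q - vert true (h, k, c, i)) h k c i
        have ea : resid 3 (Q - vert true (h, k, c, i)) = a := by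
          simp only [a, resid_eq_iff, Nat.cast_ofNat]; exact sub_emod_of_emod_zero h6
        have eb : resid 7 (Q - vert true (h, k, c, i)) = b := by
          simp only [b, resid_eq_iff, Nat.cast_ofNat]; exact sub_emod_of_emod_zero h7
        rw [ea, eb] at hp
        have hc : (c.val : ℤ) < 5 := by exact_mod_cast c.isLt
        have z1 : ∀ x : Fin 5, ((x.val : ℤ) = (r - site true (h, k, c, i)) % 25 / 5) ↔
            x = resid 5 (r % 25 / 5) - c := fun x => by
          rw [← resid_sub, Fin.ext_iff, ← Int.natCast_inj, resid_val, arithT25 h3, Nat.cast_ofNat]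
        have z2 : ∀ x : Fin 5, ((x.val : ℤ) =
            (Q - vert true (h, k, c, i) - (r - site true (h, k, c, i))) % 25 / 5) ↔
            x = resid 5 ((Q - r) % 25 / 5) + c := fun x => by
          rw [← resid_add, Fin.ext_iff, ← Int.natCast_inj, resid_val, arithT25' h3 h8,
            Nat.cast_ofNat]
        simp only [Mov, hp, e3, e7, e2]
        constructor
        · rintro ⟨hx, hy, -, hq, hj⟩
          have e := huk (I i) (h, k) ⟨hx, hy⟩
          have eP : P a b (I i) h k = p (I i) := by simp only [p, ← e]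
          rw [eP] at hq hj
          refine ⟨e, hq, ?_⟩
          split_ifs with hc'
          · rw [if_pos hc'] at hj; exact (z1 _).1 hj
          · rw [if_neg hc'] at hj; exact (z2 _).1 hj
        · rintro ⟨e, hq, hj⟩
          have eP : P a b (I i) h k = p (I i) := by simp only [p, ← e]
          rw [eP]
          refine ⟨?_, ?_, hnh _, hq, ?_⟩
          · have := (hhk (I i)).1; rw [← e] at this; rw [← eP]; exact this
          · have := (hhk (I i)).2; rw [← e] at this; rw [← eP]; exact this
          · split_ifs with hc'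
            · rw [if_pos hc'] at hj; exact (z1 _).2 hj
            · rw [if_neg hc'] at hj; exact (z2 _).2 hj
      refine ⟨((hk j0).1, (hk j0).2, c0, i0), (key _ _ _ _).2 ⟨rfl, ?_, ?_⟩, ?_⟩
      · rw [hpar]; simp only [i0, sub_sub_cancel]
      · show rank (p j0) = _
        simp only [c0]
        split_ifs <;> abel
      · rintro ⟨h, k, c, i⟩ hs
        obtain ⟨e, hq, hj⟩ := (key h k c i).1 hs
        have hi : i = i0 := by
          rw [hpar] at hq
          simp only [i0, hq, sub_sub_cancel]
        subst hi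
        have hc : c = c0 := by
          simp only [c0]
          change rank (p j0) = _ at hj
          split_ifs at hj ⊢ <;> rw [hj] <;> abel
        subst hc
        simp only [Prod.mk.injEq, and_true]
        exact Prod.mk.inj e
    · rintro Q ⟨h, k, c, i⟩ hs
      obtain ⟨h1, h2, h3, -⟩ := site_true_spec (h, k, c, i)
      simp only at h1 h2 h3
      obtain ⟨g1, g2, g3⟩ := sta_site hs
      rw [h1] at g1
      rw [h2] at g2
      rw [h3] at g3
      exact hr (staRT g1 g2 g3 (Int.ofNat_lt.2 h.isLt) (Int.ofNat_lt.2 k.isLt))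

/-- Above every site one kind of point meets all slots, every colour exactly once. -/
theorem comb (e : Bool) (r : ℤ) :
    ((∀ Q : ℤ, ∃! s : Slot, Sta (r - site e s) (Q - vert e s)) ∧
      ∀ (Q : ℤ) (s : Slot), ¬ Mov (r - site e s) Q) ∨
    ((∀ Q : ℤ, ∃! s : Slot, Mov (r - site e s) (Q - vert e s)) ∧
      ∀ (Q : ℤ) (s : Slot), ¬ Sta (r - site e s) Q) := by
  cases e
  · exact comb_false r
  · exact comb_true r

end Vale.Agent.P043.R2
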