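import Vale.Agent.P043.R2.Design

/-!
# The system of tiling equations on `ℤ × ℝ` behind the tile of `ℝ²`

The vertical period is `1050`. A piece is a pair of intervals of total length one, breaking at
`θ - n · d` for the site offset `n`.
-/

namespace Vale.Agent.P043.R2

open MeasureTheory

/-- The irrational parameter. -/
noncomputable def dd : ℝ := Real.sqrt 2 / 1000000

/-- A piece: site offset, vertical offset and choice of `θ`. -/
abbrev Piece := ℤ × ℤ × Bool

/-- A point of `ℤ × ℝ`. -/
abbrev Pt := ℤ × ℝ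

/-- The two values of `θ`. -/
noncomputable def th (t : Bool) : ℝ := bif t then 1 / 3 else 1 / 4

/-- The break of a piece. -/
noncomputable def brk (p : Piece) : ℝ := th p.2.2 - p.1 * dd

/-- The two intervals of a piece. -/
noncomputable def band (p : Piece) : Set ℝ :=
  Set.Ico (p.2.1 : ℝ) (p.2.1 + brk p) ∪ Set.Ico (p.2.1 + 524 + brk p) (p.2.1 + 525)

/-- The translate by `a` of the piece `p` covers the point `y` above the site `n`. -/
def Covers (a : Pt) (p : Piece) (n : ℤ) (y : ℝ) : Prop :=
  a.1 + p.1 = n ∧ y - a.2 ∈ band p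

/-- Almost every point is covered exactly once by the translates of the pieces. -/
def TilesSys (E : Finset Piece) (A : Set Pt) : Prop :=
  ∀ n : ℤ, ∀ᵐ y : ℝ, ∃! w : Pt × Piece, w.1 ∈ A ∧ w.2 ∈ E ∧ Covers w.1 w.2 n y

/-- A slot of an equation. -/
abbrev Slot := Fin 3 × Fin 7 × Fin 5 × Fin 2

/-- The site offset of a slot. -/
def site : Bool → Slot → ℤ
  | false, (h, k, c, i) =>
    (34300 * (3 * (h.val : ℤ)) + 27000 * (7 * (k.val : ℤ)) + 15876 * (c.val : ℤ)
      + 11025 * (2 * (i.val : ℤ))) % 44100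
  | true, (h, k, c, i) =>
    (34300 * (h.val : ℤ) + 27000 * (k.val : ℤ) + 15876 * (5 * (c.val : ℤ))
      + 11025 * (i.val : ℤ)) % 44100

/-- The vertical offset of a slot. -/
def vert : Bool → Slot → ℤ
  | false, (h, k, c, i) =>
    (525 * (i.val : ℤ) + 700 * (h.val : ℤ) + 750 * (k.val : ℤ) + 126 * (c.val : ℤ)) % 1050
  | true, (_, _, _, i) => 525 * (i.val : ℤ) % 1050

/-- The piece of a slot. -/
def slotP (e t : Bool) (s : Slot) : Piece := (site e s, vert e s, t)

/-- The equation `e` with the break `t`. -/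
def eqn (e t : Bool) : Finset Piece := Finset.univ.image (slotP e t)

/-- The first equation with its first piece replaced. -/
def mvd (dn dv : ℤ) (t : Bool) : Finset Piece :=
  insert (dn, dv, t) ((eqn false t).erase (0, 0, t))

/-- `A` solves all equations. -/
structure Sol (A : Set Pt) : Prop where
  base : ∀ e t, TilesSys (eqn e t) A
  mn : ∀ t, TilesSys (mvd 44100 0 t) A
  my : ∀ t, TilesSys (mvd 0 1050 t) A

/-- The piece moved vertically by `k`. -/
def shiftP (k : ℤ) (p : Piece) : Piece := (p.1, p.2.1 + k, p.2.2)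

/-- The solution: fixed `525`-gons and moving `2`-gons. -/
def A0 : Set Pt :=
  {a | ∃ P : ℤ, (Sta a.1 P ∧ a.2 = P) ∨ (Mov a.1 P ∧ a.2 = P - a.1 * dd)}

end Vale.Agent.P043.R2
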