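import Mathlib
import Vale.Agent.P043.R2.Tables

/-!
# The design: the moving points of the solution on a finite quotient

Sites are read modulo `9`, `49`, `25`, `4` and the colours of moving points modulo `3`, `7`, `25`.
For each layer `w` (the site modulo `5`), label `(α, β)` and copy `i`, the columns in
`ZMod 9 × ZMod 49` are tiled by `3 × 7` rectangles; each of them is one placement.
-/

namespace Vale.Agent.P043.R2

/-- A placement: layer, label, copy and place of a rectangle. -/
abbrev Plc := Fin 5 × Fin 3 × Fin 7 × Fin 2 × Fin 3 × Fin 7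

/-- A group: class of a column, parity and colour. -/
abbrev Grp := Fin 3 × Fin 7 × Fin 2 × Fin 3 × Fin 7

/-- The packed tiling of a layer and label. -/
def tilV (w : Fin 5) (a : Fin 3) (b : Fin 7) : Nat :=
  tilTab.getD ((w.val * 3 + a.val) * 7 + b.val) 0

/-- Whether the bands of a tiling run along the second coordinate. -/
def kind (w : Fin 5) (a : Fin 3) (b : Fin 7) : Bool := tilV w a b % 2 == 1

/-- The offset common to all bands. -/
def fixv (w : Fin 5) (a : Fin 3) (b : Fin 7) : Nat := tilV w a b / 2 % 8

/-- The offset chosen within a band. -/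
def chv (w : Fin 5) (a : Fin 3) (b : Fin 7) (i : Fin 2) (t : Nat) : Nat :=
  tilV w a b / 16 / 8 ^ (i.val * 7 + t) % 8

/-- The parity stored for a rectangle. -/
def prv (w : Fin 5) (a : Fin 3) (b : Fin 7) (h : Fin 3) (k : Fin 7) : Fin 2 :=
  ⟨tilV w a b / (16 * 8 ^ 14) / 2 ^ (h.val * 7 + k.val) % 2, Nat.mod_lt _ two_pos⟩

/-- The first class of a placement. -/
def clsX : Plc → Fin 3
  | (w, a, b, i, _, k) =>
    ⟨(bif kind w a b then fixv w a b else chv w a b i k.val) % 3, Nat.mod_lt _ (by norm_num)⟩

/-- The second class of a placement. -/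
def clsY : Plc → Fin 7
  | (w, a, b, i, h, _) =>
    ⟨(bif kind w a b then chv w a b i h.val else fixv w a b) % 7, Nat.mod_lt _ (by norm_num)⟩

/-- The class of the two fixed points. -/
def cls0 (r : Plc) : Bool := clsX r == 0 && clsY r == 0

/-- The placements standing for the fixed points. -/
def hole : Plc → Bool
  | r@(w, _, _, _, h, k) => w == 0 && h == 0 && k == 0 && cls0 r

/-- The parity of the sites of a placement. -/
def par : Plc → Fin 2
  | r@(w, a, b, i, h, k) => bif hole r then i else prv w a b h k

/-- The group of a placement. -/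
def grp : Plc → Grp
  | r@(_, a, b, _, h, k) => (clsX r, clsY r, par r, a - h, b - k)

/-- The rank of a placement within its group. -/
def rank : Plc → Fin 5
  | (w, a, b, i, h, k) =>
    ⟨rankTab.getD (((w.val * 3 + a.val) * 7 + b.val) * 2 + i.val) 0 / 5 ^ (h.val * 7 + k.val) % 5,
      Nat.mod_lt _ (by norm_num)⟩

/-- The index of a placement. -/
def pidx : Plc → Nat
  | (w, a, b, i, h, k) =>
    ((((w.val * 3 + a.val) * 7 + b.val) * 2 + i.val) * 3 + h.val) * 7 + k.val

/-- The stored placement of given group and rank. -/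
def invV : Grp → Fin 5 → Nat
  | (x, y, p, a, b), j =>
    (invTab.getD (x.val * 7 + y.val) []).getD ((p.val * 3 + a.val) * 7 + b.val) 0 / 4410 ^ j.val
      % 4410

/-- The residue of an integer in `Fin m`. -/
def resid (m : ℕ) [NeZero m] (z : ℤ) : Fin m :=
  ⟨(z % (m : ℤ)).toNat, by
    have hm : (0 : ℤ) < m := by exact_mod_cast Nat.pos_of_ne_zero (NeZero.ne m)
    have := Int.emod_lt_of_pos z hm
    have := Int.emod_nonneg z hm.ne'
    omega⟩

/-- The placement of a moving point of colour `P` above the site `n`. -/
def plc (n P : ℤ) : Plc :=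
  (resid 5 n, resid 3 P, resid 7 P, resid 2 (n % 4 / 2), resid 3 (n % 9 / 3), resid 7 (n % 49 / 7))

/-- The colour classes of the moving points above the site `n`. -/
def Mov (n P : ℤ) : Prop :=
  clsX (plc n P) = resid 3 n ∧ clsY (plc n P) = resid 7 n ∧ hole (plc n P) = false ∧
    par (plc n P) = resid 2 n ∧
    ((rank (plc n P)).val : ℤ) = if cls0 (plc n P) then n % 25 / 5 else (P - n) % 25 / 5

/-- The sites of the fixed points. -/
def Sta (n P : ℤ) : Prop := (11025 : ℤ) ∣ n ∧ (2 : ℤ) ∣ P

end Vale.Agent.P043.R2
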