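import Vale.Agent.P043.R2.Slots
import Vale.Agent.P043.R2.Comb

/-!
# `A0` solves the system

A translate of a piece covers a point exactly when the colour of its point is the one given by
the height of the point; the finite statement `comb` then gives exactly one.
-/

namespace Vale.Agent.P043.R2

open Set

theorem dd_pos : 0 < dd := div_pos (Real.sqrt_pos.2 (by norm_num)) (by norm_num)

theorem dd_lt : dd < 3 / 2000000 := by
  have : Real.sqrt 2 < 3 / 2 := (Real.sqrt_lt' (by norm_num)).2 (by norm_num)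
  unfold dd; linarith

theorem dd_irrational : Irrational dd := by
  have h := irrational_sqrt_two.div_natCast (m := 1000000) (by norm_num)
  simpa [dd] using h

theorem th_range (t : Bool) : 1 / 4 ≤ th t ∧ th t ≤ 1 / 3 := by
  cases t <;> norm_num [th]

theorem brk_bounds {p : Piece} (h0 : 0 ≤ p.1) (h1 : p.1 ≤ 44100) :
    0 < brk p ∧ brk p ≤ 1 / 3 := by
  have := dd_pos
  have := dd_lt
  have := th_range p.2.2
  have h0' : (0 : ℝ) ≤ p.1 := by exact_mod_cast h0
  have h1' : (p.1 : ℝ) ≤ 44100 := by exact_mod_cast h1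
  have h2 : (p.1 : ℝ) * dd ≤ 44100 * (3 / 2000000) :=
    mul_le_mul h1' (by linarith) (by linarith) (by norm_num)
  have h3 : 0 ≤ (p.1 : ℝ) * dd := by positivity
  unfold brk
  constructor <;> linarith

theorem resid_congr {m : ℕ} [NeZero m] {a b : ℤ} (h : a % (m : ℤ) = b % (m : ℤ)) :
    resid m a = resid m b := by
  ext; simp [resid, h]

/-- Fixed points repeat with the periods `44100` and `2`. -/
theorem sta_congr {n n' P P' : ℤ} (hn : (44100 : ℤ) ∣ n - n') (hP : (2 : ℤ) ∣ P - P') :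
    Sta n P ↔ Sta n' P' := by
  unfold Sta
  omega

/-- Moving points repeat with the periods `44100` and `525`. -/
theorem mov_congr {n n' P P' : ℤ} (hn : (44100 : ℤ) ∣ n - n') (hP : (525 : ℤ) ∣ P - P') :
    Mov n P ↔ Mov n' P' := by
  have hp : plc n P = plc n' P' := by
    simp only [plc, Prod.mk.injEq]
    refine ⟨?_, ?_, ?_, ?_, ?_, ?_⟩ <;> refine resid_congr ?_ <;> push_cast <;> omega
  have h3 : resid 3 n = resid 3 n' := resid_congr (by push_cast; omega)
  have h7 : resid 7 n = resid 7 n' := resid_congr (by push_cast; omega)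
  have h2 : resid 2 n = resid 2 n' := resid_congr (by push_cast; omega)
  have h25 : n % 25 = n' % 25 := by omega
  have h25' : (P - n) % 25 = (P' - n') % 25 := by omega
  unfold Mov
  rw [hp, h3, h7, h2, h25, h25']

/-- The integer point whose piece covers `X`. -/
noncomputable def pick (S : ℤ) (b X : ℝ) : ℤ :=
  ⌊X⌋ - S - if Int.fract X < b then 0 else 524

theorem band_iff {p : Piece} (h0 : 0 < brk p) (h1 : brk p < 1) (X : ℝ) (P : ℤ) :
    X - P ∈ band p ↔ P = pick p.2.1 (brk p) X := by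
  set b := brk p
  have hx := Int.floor_add_fract X
  have hf := Int.fract_nonneg X
  have hf1 := Int.fract_lt_one X
  simp only [band, mem_union, mem_Ico, pick]
  constructor
  · intro h
    rcases h with ⟨ha, hb⟩ | ⟨ha, hb⟩
    · have hfl : ⌊X⌋ = P + p.2.1 :=
        Int.floor_eq_iff.2 ⟨by push_cast; linarith, by push_cast; linarith⟩
      have hfl' : (⌊X⌋ : ℝ) = (P : ℝ) + p.2.1 := by exact_mod_cast hfl
      rw [if_pos (by linarith)]
      omega
    · have hfl : ⌊X⌋ = P + p.2.1 + 524 :=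
        Int.floor_eq_iff.2 ⟨by push_cast; linarith, by push_cast; linarith⟩
      have hfl' : (⌊X⌋ : ℝ) = (P : ℝ) + p.2.1 + 524 := by exact_mod_cast hfl
      rw [if_neg (by linarith)]
      omega
  · intro h
    split_ifs at h with hc <;> subst h <;> push_cast
    · left; constructor <;> linarith
    · right; push Not at hc; constructor <;> linarith

/-- A family of pieces congruent to the slots of an equation covers every point exactly once. -/
theorem tiles_family (e t : Bool) (g : Slot → Piece) (_hg : Function.Injective g)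
    (hsite : ∀ s, (44100 : ℤ) ∣ (g s).1 - site e s)
    (hvert : ∀ s, (1050 : ℤ) ∣ (g s).2.1 - vert e s)
    (ht : ∀ s, (g s).2.2 = t) (hr : ∀ s, 0 ≤ (g s).1 ∧ (g s).1 ≤ 44100) (n : ℤ) (y : ℝ) :
    ∃! w : Pt × Piece, w.1 ∈ A0 ∧ w.2 ∈ Finset.univ.image g ∧ Covers w.1 w.2 n y := by
  have hb : ∀ s, 0 < brk (g s) ∧ brk (g s) < 1 := fun s =>
    ⟨(brk_bounds (hr s).1 (hr s).2).1,
      lt_of_le_of_lt (brk_bounds (hr s).1 (hr s).2).2 (by norm_num)⟩
  -- the height seen by a fixed and by a moving point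
  set PS : Slot → ℤ := fun s => pick (g s).2.1 (brk (g s)) y
  set PM : Slot → ℤ := fun s =>
    pick (g s).2.1 (brk (g s)) (y + ((n - (g s).1 : ℤ) : ℝ) * dd)
  set Q : ℤ := ⌊y + (n : ℝ) * dd + 1 - th t⌋ with hQ
  have hsta : ∀ s, Sta (n - (g s).1) (PS s) ↔ Sta (n - site e s) (⌊y⌋ - vert e s) := fun s =>
    sta_congr (by have := hsite s; omega) (by
      have := hvert s
      simp only [PS, pick]
      split_ifs <;> omega)
  have hmov : ∀ s, Mov (n - (g s).1) (PM s) ↔ Mov (n - site e s) (Q - vert e s) := fun s => by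
    refine mov_congr (by have := hsite s; omega) ?_
    have := hvert s
    set X := y + ((n - (g s).1 : ℤ) : ℝ) * dd with hX
    have hx := Int.floor_add_fract X
    have hf := Int.fract_nonneg X
    have hf1 := Int.fract_lt_one X
    have hQX : y + (n : ℝ) * dd + 1 - th t = X + 1 - brk (g s) := by
      rw [hX, brk, ht]; push_cast; ring
    show (525 : ℤ) ∣ pick (g s).2.1 (brk (g s)) X - (Q - vert e s)
    simp only [pick]
    rw [hQ, hQX]
    have := (hb s).1
    have := (hb s).2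
    split_ifs with hc
    · have : ⌊X + 1 - brk (g s)⌋ = ⌊X⌋ := Int.floor_eq_iff.2 ⟨by linarith, by linarith⟩
      omega
    · have : ⌊X + 1 - brk (g s)⌋ = ⌊X⌋ + 1 :=
        Int.floor_eq_iff.2 ⟨by push_cast; linarith, by push_cast; linarith⟩
      omega
  have hcov : ∀ (a : Pt) (p : Piece), a ∈ A0 → p ∈ Finset.univ.image g → Covers a p n y →
      ∃ s, p = g s ∧ a.1 = n - (g s).1 ∧
        ((Sta (n - (g s).1) (PS s) ∧ a.2 = PS s) ∨
          (Mov (n - (g s).1) (PM s) ∧ a.2 = PM s - (a.1 : ℝ) * dd)) := by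
    rintro ⟨a1, a2⟩ p ⟨P, hP⟩ hp ⟨hn, hband⟩
    obtain ⟨s, -, rfl⟩ := Finset.mem_image.1 hp
    simp only at hn hband hP
    obtain rfl : a1 = n - (g s).1 := by omega
    refine ⟨s, rfl, rfl, ?_⟩
    rcases hP with ⟨hS, rfl⟩ | ⟨hM, rfl⟩
    · obtain rfl := (band_iff (hb s).1 (hb s).2 y P).1 hband
      exact Or.inl ⟨hS, rfl⟩
    · rw [show y - ((P : ℝ) - ((n - (g s).1 : ℤ) : ℝ) * dd)
        = y + ((n - (g s).1 : ℤ) : ℝ) * dd - P by ring] at hband
      obtain rfl := (band_iff (hb s).1 (hb s).2 _ P).1 hband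
      exact Or.inr ⟨hM, rfl⟩
  rcases comb e n with ⟨hone, hno⟩ | ⟨hone, hno⟩
  · obtain ⟨s, hs, hu⟩ := hone ⌊y⌋
    refine ⟨((n - (g s).1, (PS s : ℝ)), g s),
      ⟨⟨PS s, Or.inl ⟨(hsta s).2 hs, rfl⟩⟩, Finset.mem_image_of_mem g (Finset.mem_univ s),
        sub_add_cancel _ _, (band_iff (hb s).1 (hb s).2 y (PS s)).2 rfl⟩, ?_⟩
    rintro ⟨a, p⟩ ⟨ha, hp, hc⟩
    obtain ⟨s', rfl, ha1, ⟨hS, ha2⟩ | ⟨hM, -⟩⟩ := hcov a p ha hp hc
    · obtain rfl := hu s' ((hsta s').1 hS)
      exact Prod.ext (Prod.ext ha1 ha2) rfl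
    · exact (hno (Q - vert e s') s' ((hmov s').1 hM)).elim
  · obtain ⟨s, hs, hu⟩ := hone Q
    refine ⟨((n - (g s).1, (PM s : ℝ) - ((n - (g s).1 : ℤ) : ℝ) * dd), g s),
      ⟨⟨PM s, Or.inr ⟨(hmov s).2 hs, rfl⟩⟩, Finset.mem_image_of_mem g (Finset.mem_univ s),
        sub_add_cancel _ _, ?_⟩, ?_⟩
    · show y - ((PM s : ℝ) - ((n - (g s).1 : ℤ) : ℝ) * dd) ∈ band (g s)
      rw [show y - ((PM s : ℝ) - ((n - (g s).1 : ℤ) : ℝ) * dd)
        = y + ((n - (g s).1 : ℤ) : ℝ) * dd - PM s by ring]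
      exact (band_iff (hb s).1 (hb s).2 _ (PM s)).2 rfl
    rintro ⟨a, p⟩ ⟨ha, hp, hc⟩
    obtain ⟨s', rfl, ha1, ⟨hS, -⟩ | ⟨hM, ha2⟩⟩ := hcov a p ha hp hc
    · exact (hno (⌊y⌋ - vert e s') s' ((hsta s').1 hS)).elim
    · obtain rfl := hu s' ((hmov s').1 hM)
      refine Prod.ext (Prod.ext ha1 ?_) rfl
      rw [ha2, ha1]

theorem tiles_eqn (e t : Bool) (n : ℤ) (y : ℝ) :
    ∃! w : Pt × Piece, w.1 ∈ A0 ∧ w.2 ∈ eqn e t ∧ Covers w.1 w.2 n y :=
  tiles_family e t (slotP e t) (slotP_inj e t) (fun s => by simp [slotP])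
    (fun s => by simp [slotP]) (fun _ => rfl)
    (fun s => ⟨(site_range e s).1, (site_range e s).2.le⟩) n y

/-- The slots after replacing the first piece. -/
def mvdP (dn dv : ℤ) (t : Bool) (s : Slot) : Piece :=
  if s = 0 then (dn, dv, t) else slotP false t s

theorem mvd_eq (dn dv : ℤ) (t : Bool) : mvd dn dv t = Finset.univ.image (mvdP dn dv t) := by
  have h0 : slotP false t 0 = (0, 0, t) := by simp [slotP, site_zero, vert_zero]
  ext p
  simp only [mvd, Finset.mem_insert, Finset.mem_erase, mem_eqn, Finset.mem_image, Finset.mem_univ,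
    true_and]
  constructor
  · rintro (rfl | ⟨hne, s, rfl⟩)
    · exact ⟨0, by simp [mvdP]⟩
    · refine ⟨s, if_neg ?_⟩
      rintro rfl
      exact hne h0
  · rintro ⟨s, rfl⟩
    by_cases hs : s = 0
    · exact Or.inl (by simp [mvdP, hs])
    · refine Or.inr ⟨?_, s, by simp [mvdP, hs]⟩
      simp only [mvdP, if_neg hs]
      exact fun h => hs (slotP_inj false t (h.trans h0.symm))

/-- The pieces after replacing the first one stand above different sites. -/
theorem mvdP_site_inj (dn dv : ℤ) (t : Bool) (hdn : dn = 0 ∨ dn = 44100) {s s' : Slot}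
    (h1 : (mvdP dn dv t s).1 = (mvdP dn dv t s').1) : s = s' := by
  by_cases hs : s = 0 <;> by_cases hs' : s' = 0
  · rw [hs, hs']
  all_goals
    simp only [mvdP, hs, hs', if_true, if_false, slotP] at h1
  · exfalso
    refine hs' (site_inj false ?_)
    rw [site_zero]
    rcases hdn with rfl | rfl
    · exact h1.symm
    · have := (site_range false s').2; omega
  · exfalso
    refine hs (site_inj false ?_)
    rw [site_zero]
    rcases hdn with rfl | rfl
    · exact h1
    · have := (site_range false s).2; omega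
  · exact site_inj false h1

theorem tiles_mvd (dn dv : ℤ) (t : Bool) (hdn : dn = 0 ∨ dn = 44100) (hdv : (1050 : ℤ) ∣ dv)
    (n : ℤ) (y : ℝ) :
    ∃! w : Pt × Piece, w.1 ∈ A0 ∧ w.2 ∈ mvd dn dv t ∧ Covers w.1 w.2 n y := by
  rw [mvd_eq]
  refine tiles_family false t (mvdP dn dv t)
    (fun s s' h => mvdP_site_inj dn dv t hdn (congrArg Prod.fst h)) ?_ ?_ ?_ ?_ n y
  · intro s
    by_cases hs : s = 0
    · simp only [mvdP, hs, if_true, site_zero]
      omega
    · simp [mvdP, hs, slotP]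
  · intro s
    by_cases hs : s = 0
    · simp only [mvdP, hs, if_true, vert_zero]
      omega
    · simp [mvdP, hs, slotP]
  · intro s
    unfold mvdP slotP
    split_ifs <;> rfl
  · intro s
    have := site_range false s
    unfold mvdP slotP
    split_ifs <;> simp only <;> omega

theorem tiles_mn (t : Bool) (n : ℤ) (y : ℝ) :
    ∃! w : Pt × Piece, w.1 ∈ A0 ∧ w.2 ∈ mvd 44100 0 t ∧ Covers w.1 w.2 n y :=
  tiles_mvd 44100 0 t (Or.inr rfl) (dvd_zero _) n y

theorem tiles_my (t : Bool) (n : ℤ) (y : ℝ) :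
    ∃! w : Pt × Piece, w.1 ∈ A0 ∧ w.2 ∈ mvd 0 1050 t ∧ Covers w.1 w.2 n y :=
  tiles_mvd 0 1050 t (Or.inl rfl) dvd_rfl n y

theorem covers_shift (k : ℤ) (a : Pt) (p : Piece) (n : ℤ) (y : ℝ) :
    Covers a (shiftP k p) n y ↔ Covers a p n (y - k) := by
  simp only [Covers, shiftP, band, brk, mem_union, mem_Ico]
  push_cast
  refine and_congr_right fun _ => ?_
  constructor <;> rintro (⟨h1, h2⟩ | ⟨h1, h2⟩)
  · left; constructor <;> linarith
  · right; constructor <;> linarith
  · left; constructor <;> linarith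
  · right; constructor <;> linarith

theorem tiles_shift (k : ℤ) (n : ℤ) (y : ℝ) :
    ∃! w : Pt × Piece, w.1 ∈ A0 ∧ w.2 ∈ (eqn false false).image (shiftP k) ∧ Covers w.1 w.2 n y := by
  obtain ⟨⟨a, p⟩, ⟨ha, hp, hc⟩, hu⟩ := tiles_eqn false false n (y - k)
  refine ⟨(a, shiftP k p), ⟨ha, Finset.mem_image_of_mem _ hp, (covers_shift k a p n y).2 hc⟩, ?_⟩
  rintro ⟨a', q⟩ ⟨ha', hq, hc'⟩
  obtain ⟨p', hp', rfl⟩ := Finset.mem_image.1 hq
  have h := hu (a', p') ⟨ha', hp', (covers_shift k a' p' n y).1 hc'⟩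
  rw [Prod.mk.injEq] at h
  rw [h.1, h.2]

/-- `A0` is a solution of the system. -/
theorem sol_A0 : Sol A0 :=
  ⟨fun e t n => .of_forall (tiles_eqn e t n), fun t n => .of_forall (tiles_mn t n),
    fun t n => .of_forall (tiles_my t n)⟩

end Vale.Agent.P043.R2
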