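import Vale.Agent.P043.R2.Sep

/-!
# The Fourier modes of a solution

A solution is given by finite sets on circles of length `1050`, and each equation becomes one
linear relation for each mode of these sets.
-/

namespace Vale.Agent.P043.R2

open MeasureTheory Set

/-- The function `x ↦ exp (2 π i x)`. -/
noncomputable def ee (x : ℝ) : ℂ := Complex.exp (((2 * Real.pi * x : ℝ) : ℂ) * Complex.I)

theorem ee_add (x y : ℝ) : ee (x + y) = ee x * ee y := by
  simp only [ee, ← Complex.exp_add]; congr 1; push_cast; ring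

theorem ee_zero : ee 0 = 1 := by simp [ee]

theorem ee_ne_zero (x : ℝ) : ee x ≠ 0 := Complex.exp_ne_zero _

theorem ee_eq_one_iff (x : ℝ) : ee x = 1 ↔ ∃ t : ℤ, x = t := by
  rw [ee, Complex.exp_eq_one_iff]
  constructor
  · rintro ⟨t, ht⟩
    refine ⟨t, ?_⟩
    have h := congrArg Complex.im ht
    simp at h
    nlinarith [Real.pi_pos, h]
  · rintro ⟨t, rfl⟩
    exact ⟨t, by push_cast; ring⟩

/-- The character of mode `k` of the circle of length `1050`. -/
noncomputable def ch (k : ℕ) (x : ℝ) : ℂ := ee (k * x / 1050)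

theorem ch_add (k : ℕ) (x y : ℝ) : ch k (x + y) = ch k x * ch k y := by
  rw [ch, ch, ch, ← ee_add]; congr 1; ring

theorem ch_ne_zero (k : ℕ) (x : ℝ) : ch k x ≠ 0 := ee_ne_zero _

theorem ch_zero (k : ℕ) : ch k 0 = 1 := by simp [ch, ee_zero]

theorem ch_eq_one_iff (k : ℕ) (x : ℝ) : ch k x = 1 ↔ ∃ t : ℤ, (k : ℝ) * x = 1050 * t := by
  rw [ch, ee_eq_one_iff]
  refine exists_congr fun t => ?_
  rw [div_eq_iff (by norm_num : (1050 : ℝ) ≠ 0), mul_comm (t : ℝ)]

theorem ch_period (k : ℕ) (x : ℝ) : ch k (x + 1050) = ch k x := by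
  rw [ch_add, (ch_eq_one_iff k 1050).2 ⟨k, by push_cast; ring⟩, mul_one]

theorem ch_periodic (k : ℕ) : Function.Periodic (ch k) 1050 := ch_period k

theorem ch_toIco (k : ℕ) (x : ℝ) :
    ch k (toIcoMod (by norm_num : (0 : ℝ) < 1050) 0 x) = ch k x := by
  rw [toIcoMod]
  exact (ch_periodic k).sub_zsmul_eq _

theorem dd_irr (a b : ℤ) : dd ≠ (a : ℝ) / b := by
  intro h
  have hirr : Irrational dd := irrational_sqrt_two.div_natCast (show (1000000 : ℕ) ≠ 0 by norm_num)
  exact hirr.ne_rat ((a : ℚ) / b) (by rw [h]; push_cast; rfl)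

/-- The bounds of the break of a piece with a small site offset. -/
theorem brk_mem {p : Piece} (h0 : 0 ≤ p.1) (h1 : p.1 ≤ 44100) : 0 < brk p ∧ brk p < 1 := by
  obtain ⟨ha, hb⟩ := th_mem p.2.2
  have hd : dd ≤ 2 / 1000000 := by
    rw [dd]
    have : Real.sqrt 2 ≤ 2 := by
      rw [Real.sqrt_le_left (by norm_num)]; norm_num
    gcongr
  have hd0 : 0 < dd := by rw [dd]; positivity
  have e0 : (0 : ℝ) ≤ p.1 := by exact_mod_cast h0
  have e1 : (p.1 : ℝ) ≤ 44100 := by exact_mod_cast h1
  rw [brk]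
  constructor <;> nlinarith

/-- All pieces have both intervals nondegenerate. -/
def Good (E : Finset Piece) : Prop := ∀ p ∈ E, 0 < brk p ∧ brk p < 1

theorem good_eqn (e t : Bool) : Good (eqn e t) := by
  intro p hp
  obtain ⟨s, rfl⟩ := mem_eqn.1 hp
  exact brk_mem (site_range e s).1 (site_range e s).2.le

theorem good_mn (t : Bool) : Good (mvd 44100 0 t) := by
  intro p hp
  rcases Finset.mem_insert.1 hp with rfl | hp
  · exact brk_mem (by norm_num) le_rfl
  · exact good_eqn _ _ p (Finset.mem_of_mem_erase hp)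

/-- The start of an interval of a piece. -/
noncomputable def lo (q : Piece × Bool) : ℝ :=
  bif q.2 then (q.1.2.1 : ℝ) + 524 + brk q.1 else q.1.2.1

/-- The length of an interval of a piece. -/
noncomputable def len (q : Piece × Bool) : ℝ := bif q.2 then 1 - brk q.1 else brk q.1

theorem len_mem {E : Finset Piece} (hG : Good E) {q : Piece × Bool} (hq : q.1 ∈ E) :
    0 < len q ∧ len q < 1050 := by
  obtain ⟨p, j⟩ := q
  obtain ⟨h1, h2⟩ := hG p hq
  cases j <;> simp only [len, cond_false, cond_true] <;> constructor <;> linarith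

variable {A : Set Pt}

/-- The points above a site in the fundamental interval. -/
noncomputable def pts (A : Set Pt) (n : ℤ) : Finset ℝ :=
  open Classical in
  if h : {x | (n, x) ∈ A ∧ x ∈ Ico (0 : ℝ) 1050}.Finite then h.toFinset else ∅

theorem mem_pts (hA : Sol A) {n : ℤ} {x : ℝ} :
    x ∈ pts A n ↔ (n, x) ∈ A ∧ x ∈ Ico (0 : ℝ) 1050 := by
  have h : {x | (n, x) ∈ A ∧ x ∈ Ico (0 : ℝ) 1050}.Finite :=
    (near_finite hA n 0 1050).subset fun _ hx => ⟨hx.1, Ico_subset_Icc_self hx.2⟩
  rw [pts, dif_pos h, Set.Finite.mem_toFinset]; rfl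

theorem toIco_mem_pts (hA : Sol A) {n : ℤ} {x : ℝ} (h : (n, x) ∈ A) :
    toIcoMod (by norm_num : (0 : ℝ) < 1050) 0 x ∈ pts A n := by
  have hm := toIcoMod_mem_Ico (by norm_num : (0 : ℝ) < 1050) 0 x
  rw [zero_add] at hm
  refine (mem_pts hA).2 ⟨?_, hm⟩
  have := (per_y_int hA n x (-toIcoDiv (by norm_num : (0 : ℝ) < 1050) 0 x)).1 h
  rw [toIcoMod, zsmul_eq_mul]
  convert this using 2
  push_cast; ring

theorem toIco_eq_self {x : ℝ} (hx : x ∈ Ico (0 : ℝ) 1050) :
    toIcoMod (by norm_num : (0 : ℝ) < 1050) 0 x = x :=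
  (toIcoMod_eq_self _).2 (by rwa [zero_add])

open Classical in
theorem ae_count (hA : Sol A) {E : Finset Piece} (hT : TilesSys E A) (hG : Good E) (n : ℤ) :
    ∀ᵐ y : ℝ, (((E ×ˢ (Finset.univ : Finset Bool)).sigma fun q => pts A (n - q.1.1)).filter
      fun w => toIcoMod (by norm_num : (0 : ℝ) < 1050) 0 (y - (w.2 + lo w.1)) < len w.1).card = 1 := by
  filter_upwards [hT n] with y hy
  obtain ⟨⟨⟨a1, a2⟩, p⟩, ⟨ha, hp, e1, hI⟩, hu⟩ := hy
  simp only at e1 hI ha hp
  obtain ⟨j, hj⟩ : ∃ j, y - a2 - lo (p, j) ∈ Ico 0 (len (p, j)) := by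
    rcases hI with ⟨h1, h2⟩ | ⟨h1, h2⟩
    · exact ⟨false, by simp only [lo, len, cond_false, mem_Ico]; constructor <;> linarith⟩
    · exact ⟨true, by simp only [lo, len, cond_true, mem_Ico]; constructor <;> linarith⟩
  set x0 := toIcoMod (by norm_num : (0 : ℝ) < 1050) 0 a2 with hx0
  refine Finset.card_eq_one.2 ⟨⟨(p, j), x0⟩, Finset.eq_singleton_iff_unique_mem.2 ⟨?_, ?_⟩⟩
  · simp only [Finset.mem_filter, Finset.mem_sigma, Finset.mem_product, Finset.mem_univ, and_true]
    refine ⟨⟨hp, ?_⟩, ?_⟩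
    · rw [show n - p.1 = a1 by omega]
      exact toIco_mem_pts hA ha
    · have hlt := (len_mem hG (q := (p, j)) hp).2
      rw [show y - (x0 + lo (p, j)) = (y - a2 - lo (p, j))
          + toIcoDiv (by norm_num : (0 : ℝ) < 1050) 0 a2 • (1050 : ℝ) by
        rw [hx0, toIcoMod]; ring,
        toIcoMod_add_zsmul, toIco_eq_self ⟨hj.1, hj.2.trans hlt⟩]
      exact hj.2
  · rintro ⟨⟨p', j'⟩, x⟩ hw
    simp only [Finset.mem_filter, Finset.mem_sigma, Finset.mem_product, Finset.mem_univ,
      and_true] at hw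
    obtain ⟨⟨hp', hx⟩, hlt⟩ := hw
    obtain ⟨hxA, hx01⟩ := (mem_pts hA).1 hx
    set t := toIcoDiv (by norm_num : (0 : ℝ) < 1050) 0 (y - (x + lo (p', j')))
    have hI' : y - (x + 1050 * t) - lo (p', j') ∈ Ico 0 (len (p', j')) := by
      rw [show y - (x + 1050 * t) - lo (p', j')
          = toIcoMod (by norm_num : (0 : ℝ) < 1050) 0 (y - (x + lo (p', j'))) by
        rw [toIcoMod, zsmul_eq_mul]; ring]
      exact ⟨(toIcoMod_mem_Ico _ _ _).1, hlt⟩
    have h := hu ((n - p'.1, x + 1050 * t), p') ⟨(per_y_int hA _ x t).1 hxA, hp',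
      sub_add_cancel _ _, by
        show y - (x + 1050 * t) ∈ band p'
        cases j'
        · left; simp only [lo, len, cond_false, mem_Ico] at hI' ⊢; constructor <;> linarith
        · right; simp only [lo, len, cond_true, mem_Ico] at hI' ⊢; constructor <;> linarith⟩
    simp only [Prod.mk.injEq] at h
    obtain ⟨⟨-, h3⟩, rfl⟩ := h
    have hx' : x = x0 := by
      rw [hx0, ← h3, mul_comm, ← zsmul_eq_mul, toIcoMod_add_zsmul, toIco_eq_self hx01]
    obtain rfl : j' = j := by
      obtain ⟨hb1, hb2⟩ := hG p' hp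
      rw [h3] at hI'
      cases j <;> cases j' <;> first
        | rfl
        | (simp only [lo, len, cond_false, cond_true, mem_Ico] at hj hI'; linarith)
    subst hx'
    rfl

theorem arc_integral {T : ℝ} (hT : 0 < T) {g : ℝ → ℂ} (hgp : Function.Periodic g T) {L : ℝ}
    (hL0 : 0 < L) (hL1 : L < T) (c : ℝ) :
    ∫ y in (0 : ℝ)..T, ({u | toIcoMod hT 0 (u - c) < L}.indicator g) y = ∫ y in c..(c + L), g y := by
  classical
  set f := {u | toIcoMod hT 0 (u - c) < L}.indicator g
  have hper : Function.Periodic f T := by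
    intro u
    simp only [f, Set.indicator_apply, mem_ofPred_eq, hgp u,
      show u + T - c = u - c + T by ring, toIcoMod_add_right]
  have h0 := hper.intervalIntegral_add_eq 0 c
  rw [zero_add] at h0
  rw [h0, intervalIntegral.integral_of_le (by linarith), intervalIntegral.integral_of_le (by linarith)]
  have hS : MeasurableSet {u : ℝ | toIcoMod hT 0 (u - c) < L} := by
    have : (fun u : ℝ => toIcoMod hT 0 (u - c)) = fun u => Int.fract ((u - c) / T) * T := by
      funext u; rw [toIcoMod_eq_fract_mul]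
    rw [show {u : ℝ | toIcoMod hT 0 (u - c) < L} = {u : ℝ | Int.fract ((u - c) / T) * T < L} by
      ext u; show _ < L ↔ _ < L; rw [← congrFun this u]]
    exact measurableSet_lt ((measurable_fract.comp ((measurable_id.sub_const c).div_const T)).mul_const T)
      measurable_const
  simp only [f]
  rw [setIntegral_indicator hS]
  refine setIntegral_congr_set ?_
  filter_upwards [Measure.ae_ne volume (c + L), Measure.ae_ne volume (c + T)] with u h2 h1
  refine propext ⟨fun ⟨⟨hu1, hu2⟩, hu3⟩ => ?_, fun ⟨hu1, hu2⟩ => ?_⟩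
  · have e : toIcoMod hT 0 (u - c) = u - c :=
      (toIcoMod_eq_self hT).2 ⟨by linarith, by
        have := lt_of_le_of_ne hu2 h1; linarith⟩
    have hu3' : toIcoMod hT 0 (u - c) < L := hu3
    rw [e] at hu3'
    exact ⟨hu1, by linarith⟩
  · refine ⟨⟨hu1, by linarith⟩, ?_⟩
    show toIcoMod hT 0 (u - c) < L
    have := lt_of_le_of_ne hu2 h2
    rw [(toIcoMod_eq_self hT).2 ⟨by linarith, by linarith⟩]
    linarith

/-- Integration of an equation against a periodic function. -/
theorem integ_eq (hA : Sol A) {E : Finset Piece} (hT : TilesSys E A) (hG : Good E) (n : ℤ)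
    {g : ℝ → ℂ} (hg : Continuous g) (hgp : Function.Periodic g 1050) :
    ∑ p ∈ E, ∑ j : Bool, ∑ x ∈ pts A (n - p.1),
      ∫ y in (x + lo (p, j))..(x + lo (p, j) + len (p, j)), g y = ∫ y in (0 : ℝ)..1050, g y := by
  classical
  rw [← Finset.sum_product' E Finset.univ,
    ← Finset.sum_sigma (E ×ˢ (Finset.univ : Finset Bool)) _ (fun w : (_ : Piece × Bool) × ℝ =>
      ∫ y in (w.2 + lo w.1)..(w.2 + lo w.1 + len w.1), g y)]
  have hmem : ∀ w : (_ : Piece × Bool) × ℝ,
      w ∈ (E ×ˢ (Finset.univ : Finset Bool)).sigma (fun q => pts A (n - q.1.1)) → w.1.1 ∈ E :=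
    fun w hw => (Finset.mem_product.1 (Finset.mem_sigma.1 hw).1).1
  have hmeas : ∀ c L : ℝ, MeasurableSet
      {u : ℝ | toIcoMod (by norm_num : (0 : ℝ) < 1050) 0 (u - c) < L} := by
    intro c L
    rw [show {u : ℝ | toIcoMod (by norm_num : (0 : ℝ) < 1050) 0 (u - c) < L}
        = {u : ℝ | Int.fract ((u - c) / 1050) * 1050 < L} by
      ext u; show _ < L ↔ _ < L; rw [toIcoMod_eq_fract_mul]]
    exact measurableSet_lt
      ((measurable_fract.comp ((measurable_id.sub_const c).div_const _)).mul_const _) measurable_const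
  rw [Finset.sum_congr rfl fun w hw => (arc_integral (by norm_num : (0 : ℝ) < 1050) hgp
    (len_mem hG (hmem w hw)).1 (len_mem hG (hmem w hw)).2 (w.2 + lo w.1)).symm]
  rw [← intervalIntegral.integral_finsetSum fun w _ => ?_]
  · refine intervalIntegral.integral_congr_ae ((ae_count hA hT hG n).mono fun y hy _ => ?_)
    simp only [Set.indicator_apply, mem_ofPred_eq, ← Finset.sum_filter, Finset.sum_const, hy, one_smul]
  · rw [intervalIntegrable_iff]
    exact (hg.intervalIntegrable 0 1050).def'.indicator (hmeas _ _)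

/-- The Fourier coefficient of mode `k` of a site. -/
noncomputable def V (A : Set Pt) (k : ℕ) (n : ℤ) : ℂ := ∑ x ∈ pts A n, ch k x

/-- The number of points of a site. -/
noncomputable def cnt (A : Set Pt) (n : ℤ) : ℕ := (pts A n).card

theorem mode_zero (hA : Sol A) {E : Finset Piece} (hT : TilesSys E A) (hG : Good E) (n : ℤ) :
    ∑ p ∈ E, cnt A (n - p.1) = 1050 := by
  have h := integ_eq hA hT hG n (g := fun _ => (1 : ℂ)) continuous_const (fun _ => rfl)
  simp only [intervalIntegral.integral_const, add_sub_cancel_left, sub_zero, Complex.real_smul,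
    mul_one, Finset.sum_const, nsmul_eq_mul, Fintype.sum_bool, len, cond_true, cond_false] at h
  push_cast at h
  have h' : ((∑ p ∈ E, cnt A (n - p.1) : ℕ) : ℂ) = ((1050 : ℕ) : ℂ) := by
    push_cast
    rw [← h]
    refine Finset.sum_congr rfl fun p _ => ?_
    simp only [cnt]; ring
  exact_mod_cast h'

theorem mode_eq (hA : Sol A) {E : Finset Piece} (hT : TilesSys E A) (hG : Good E) (n : ℤ)
    {k : ℕ} (hk : k ≠ 0) :
    ∑ p ∈ E, ch k p.2.1 * ((ch k 525 - 1) + (1 - ch k 524) * ch k (brk p))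
      * V A k (n - p.1) = 0 := by
  set c : ℂ := 2 * Real.pi * k * Complex.I / 1050 with hc
  have hc0 : c ≠ 0 := by simp [hc, hk, Real.pi_ne_zero]
  have hint : ∀ a b : ℝ, ∫ y in a..b, ch k y = (ch k b - ch k a) / c := by
    intro a b
    have e : ∀ y : ℝ, ch k y = Complex.exp (c * y) := fun y => by
      simp only [ch, ee, hc]; congr 1; push_cast; ring
    simp only [e]
    exact integral_exp_mul_complex hc0
  have h := integ_eq hA hT hG n (g := ch k) (by unfold ch ee; fun_prop) (ch_periodic k)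
  have h0 : ch k 1050 = ch k 0 := by simpa using ch_period k 0
  simp only [hint, ← Finset.sum_div] at h
  rw [h0, sub_self, zero_div, div_eq_zero_iff, or_iff_left hc0] at h
  rw [← h]
  refine Finset.sum_congr rfl fun p _ => ?_
  have e525 : ch k 525 = ch k 524 * ch k 1 := by rw [← ch_add]; norm_num
  rw [Fintype.sum_bool, V, Finset.mul_sum, ← Finset.sum_add_distrib]
  refine Finset.sum_congr rfl fun x _ => ?_
  have e1 : x + lo (p, true) + len (p, true) = x + p.2.1 + 525 := by
    simp only [lo, len, cond_true]; ring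
  rw [e1]
  simp only [lo, len, cond_true, cond_false]
  simp only [ch_add]
  ring

/-- A period of the solution acts on the Fourier coefficients. -/
theorem V_shift (hA : Sol A) {M : ℤ} {τ : ℝ}
    (hP : ∀ n y, (n + M, y + τ) ∈ A ↔ (n, y) ∈ A) (k : ℕ) (n : ℤ) :
    V A k (n + M) = ch k τ * V A k n := by
  classical
  have hp : (0 : ℝ) < 1050 := by norm_num
  simp only [V, Finset.mul_sum]
  refine (Finset.sum_bij' (fun x _ => toIcoMod hp 0 (x + τ)) (fun x _ => toIcoMod hp 0 (x - τ))
    ?_ ?_ ?_ ?_ ?_).symm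
  · intro x hx
    exact toIco_mem_pts hA ((hP n x).2 ((mem_pts hA).1 hx).1)
  · intro x hx
    refine toIco_mem_pts hA ((hP n (x - τ)).1 ?_)
    rw [sub_add_cancel]
    exact ((mem_pts hA).1 hx).1
  · intro x hx
    show toIcoMod hp 0 (toIcoMod hp 0 (x + τ) - τ) = x
    rw [show toIcoMod hp 0 (x + τ) - τ = x - toIcoDiv hp 0 (x + τ) • (1050 : ℝ) by rw [toIcoMod]; ring,
      toIcoMod_sub_zsmul, toIco_eq_self ((mem_pts hA).1 hx).2]
  · intro x hx
    show toIcoMod hp 0 (toIcoMod hp 0 (x - τ) + τ) = x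
    rw [show toIcoMod hp 0 (x - τ) + τ = x - toIcoDiv hp 0 (x - τ) • (1050 : ℝ) by rw [toIcoMod]; ring,
      toIcoMod_sub_zsmul, toIco_eq_self ((mem_pts hA).1 hx).2]
  · intro x _
    show ch k τ * ch k x = ch k (toIcoMod hp 0 (x + τ))
    rw [ch_toIco, ch_add, mul_comm]

/-- A sum over an equation, slot by slot. -/
theorem sum_eqn {M : Type} [AddCommMonoid M] (e t : Bool) (F : Piece → M) :
    ∑ p ∈ eqn e t, F p = ∑ s : Slot, F (slotP e t s) := by
  rw [eqn, Finset.sum_image fun _ _ _ _ h => slotP_inj e t h]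

end Vale.Agent.P043.R2
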