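import Vale.Agent.P043.R2.Slots

/-!
# A solution is separated and has the period `(0, 1050)`

The first slot of the first equation covers two intervals above each point. Comparing it, for both
breaks, with the moved piece shows that the points repeat with period `1050`.
-/

namespace Vale.Agent.P043.R2

open MeasureTheory Set Filter Topology

/-- A property holding almost everywhere holds somewhere in every interval. -/
theorem exists_mem_Ioo {P : ℝ → Prop} (h : ∀ᵐ y : ℝ, P y) {a b : ℝ} (hab : a < b) :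
    ∃ y ∈ Ioo a b, P y := by
  by_contra hc
  push Not at hc
  have h0 : volume (Ioo a b) = 0 := measure_mono_null (fun y hy => hc y hy) (ae_iff.1 h)
  rw [Real.volume_Ioo, ENNReal.ofReal_eq_zero] at h0
  linarith

theorem th_mem (t : Bool) : 1 / 4 ≤ th t ∧ th t ≤ 1 / 3 := by
  cases t <;> norm_num [th]

/-- The union of the two intervals of a slot with break `b`. -/
def band0 (b : ℝ) : Set ℝ := Ico 0 b ∪ Ico (524 + b) 525

theorem band_zero (k : ℤ) (t : Bool) (z : ℝ) :
    z ∈ band ((0, k, t) : Piece) ↔ z - k ∈ band0 (th t) := by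
  simp only [band, band0, brk, Set.mem_union, Set.mem_Ico, Int.cast_zero, zero_mul, sub_zero]
  constructor <;> rintro (⟨h1, h2⟩ | ⟨h1, h2⟩) <;>
    first
      | (left; constructor <;> linarith)
      | (right; constructor <;> linarith)

theorem covers_zero (n : ℤ) (x y : ℝ) (k : ℤ) (t : Bool) :
    Covers (n, x) ((0, k, t) : Piece) n y ↔ y - x - k ∈ band0 (th t) := by
  simp only [Covers, add_zero, true_and, band_zero]

variable {A : Set Pt}

theorem sep (hA : Sol A) {n : ℤ} {x x' : ℝ} (h : (n, x) ∈ A) (h' : (n, x') ∈ A)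
    (hd : |x - x'| < 3 / 4) : x = x' := by
  rw [abs_lt] at hd
  obtain ⟨y, hy, hu⟩ := exists_mem_Ioo (hA.base false false n)
    (show max x x' + (524 + 1 / 4) < min x x' + 525 by
      rcases le_total x x' with e | e <;> simp [e] <;> linarith)
  have hc : ∀ z, z = x ∨ z = x' → Covers (n, z) ((0, 0, false) : Piece) n y := by
    intro z hz
    have h1 := hy.1
    have h2 := hy.2
    have := le_max_left x x'
    have := le_max_right x x'
    have := min_le_left x x'
    have := min_le_right x x'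
    rw [covers_zero]
    refine Or.inr ?_
    simp only [th, cond_false, mem_Ico, Int.cast_zero, sub_zero]
    rcases hz with rfl | rfl <;> constructor <;> linarith
  have := hu.unique (y₁ := ((n, x), ((0, 0, false) : Piece))) (y₂ := ((n, x'), ((0, 0, false) : Piece)))
    ⟨h, zero_mem_eqn false, hc x (Or.inl rfl)⟩ ⟨h', zero_mem_eqn false, hc x' (Or.inr rfl)⟩
  simp only [Prod.mk.injEq] at this
  exact this.1.2

/-- The points above a site in a bounded interval form a finite set. -/
theorem near_finite (hA : Sol A) (n : ℤ) (a b : ℝ) : {x | (n, x) ∈ A ∧ x ∈ Icc a b}.Finite := by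
  refine Set.Finite.of_injOn (f := fun x : ℝ => ⌊2 * x⌋) (t := Icc ⌊2 * a⌋ ⌊2 * b⌋) ?_ ?_
    (finite_Icc _ _)
  · intro x hx
    exact ⟨Int.floor_le_floor (by linarith [hx.2.1]), Int.floor_le_floor (by linarith [hx.2.2])⟩
  · intro x hx x' hx' e
    refine sep hA hx.1 hx'.1 ?_
    simp only at e
    have h1 := Int.floor_le (2 * x)
    have h2 := Int.lt_floor_add_one (2 * x)
    have h3 := Int.floor_le (2 * x')
    have h4 := Int.lt_floor_add_one (2 * x')
    rw [e] at h1 h2
    rw [abs_lt]
    constructor <;> linarith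

/-- The value of the union of the intervals just to the right of a point. -/
theorem right_stable {b : ℝ} (S : Finset ℝ) (u : ℝ) :
    ∀ᶠ v in 𝓝[>] u, ∀ x ∈ S, (v - x ∈ band0 b ↔ u - x ∈ band0 b) := by
  have key : ∀ c : ℝ, ∀ᶠ v in 𝓝[>] u, (v < c ↔ u < c) ∧ (c ≤ v ↔ c ≤ u) := by
    intro c
    rcases lt_or_ge u c with h | h
    · filter_upwards [Ioo_mem_nhdsGT h] with v hv
      exact ⟨iff_of_true hv.2 h, iff_of_false (not_le.2 hv.2) (not_le.2 h)⟩
    · filter_upwards [self_mem_nhdsWithin] with v hv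
      have : u < v := hv
      exact ⟨iff_of_false (by linarith) (by linarith), iff_of_true (by linarith) h⟩
  refine (eventually_all_finset S).2 fun x _ => ?_
  filter_upwards [key x, key (x + b), key (x + (524 + b)), key (x + 525)] with v h0 h1 h2 h3
  simp only [band0, mem_union, mem_Ico, le_sub_iff_add_le', sub_lt_iff_lt_add', add_zero]
  rw [h0.2, h1.1, h2.2, h3.1]

/-- The value of the union of the intervals just to the left of a point. -/
theorem left_stable {b : ℝ} (S : Finset ℝ) (u : ℝ) :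
    ∀ᶠ v in 𝓝[<] u, ∀ x ∈ S,
      (v - x ∈ band0 b ↔ u - x ∈ Ioc 0 b ∪ Ioc (524 + b) 525) := by
  have key : ∀ c : ℝ, ∀ᶠ v in 𝓝[<] u, (v < c ↔ u ≤ c) ∧ (c ≤ v ↔ c < u) := by
    intro c
    rcases lt_or_ge c u with h | h
    · filter_upwards [Ioo_mem_nhdsLT h] with v hv
      exact ⟨iff_of_false (not_lt.2 hv.1.le) (not_le.2 h), iff_of_true hv.1.le h⟩
    · filter_upwards [self_mem_nhdsWithin] with v hv
      have : v < u := hv
      exact ⟨iff_of_true (by linarith) h, iff_of_false (by linarith) (by linarith)⟩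
  refine (eventually_all_finset S).2 fun x _ => ?_
  filter_upwards [key x, key (x + b), key (x + (524 + b)), key (x + 525)] with v h0 h1 h2 h3
  simp only [band0, mem_union, mem_Ico, mem_Ioc, le_sub_iff_add_le', sub_lt_iff_lt_add',
    lt_sub_iff_add_lt', sub_le_iff_le_add', add_zero]
  rw [h0.2, h1.1, h2.2, h3.1]

open Classical in
/-- The indicator of a set, with integer values. -/
noncomputable def ind (Y : Set ℝ) (u : ℝ) : ℤ := if u ∈ Y then 1 else 0

open Classical in
/-- The number of intervals over a point, read at that point from one side. -/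
noncomputable def cover (S : Finset ℝ) (B : Set ℝ) (u : ℝ) : ℤ := (S.filter fun x => u - x ∈ B).card

theorem cover_jump {b : ℝ} (hb : 0 < b) (hb' : b < 1) {Y : Set ℝ} {S : Finset ℝ} {u : ℝ}
    (hS : ∀ x, x ∈ S ↔ x ∈ Y ∧ x ∈ Icc (u - 526) (u + 1)) :
    cover S (band0 b) u - cover S (Ioc 0 b ∪ Ioc (524 + b) 525) u
      = ind Y u - ind Y (u - b) + ind Y (u - (524 + b)) - ind Y (u - 525) := by
  classical
  have hind : ∀ c : ℝ, 0 ≤ c → c ≤ 525 →
      ind Y (u - c) = ∑ x ∈ S, if u - x = c then 1 else 0 := by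
    intro c hc hc'
    have e : ∀ x : ℝ, (u - x = c ↔ x = u - c) := fun x => by constructor <;> intro h <;> linarith
    simp only [e, Finset.sum_ite_eq', ind]
    refine if_congr ?_ rfl rfl
    rw [hS]
    exact ⟨fun h => ⟨h, by constructor <;> linarith⟩, fun h => h.1⟩
  rw [show ind Y u = ind Y (u - 0) by rw [sub_zero],
    hind 0 le_rfl (by norm_num), hind b hb.le (by linarith), hind (524 + b) (by linarith) (by linarith),
    hind 525 (by norm_num) le_rfl]
  simp only [cover, Finset.natCast_card_filter, ← Finset.sum_sub_distrib, ← Finset.sum_add_distrib]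
  refine Finset.sum_congr rfl fun x _ => ?_
  generalize u - x = z
  simp only [band0, mem_union, mem_Ico, mem_Ioc]
  split_ifs <;> first | rfl | (exfalso; grind)

/-- Two separated sets with equal unions of intervals have equal jumps. -/
theorem jump_eq {b : ℝ} (hb : 0 < b) (hb' : b < 1) {Y Z : Set ℝ}
    (hY : ∀ a c, (Y ∩ Icc a c).Finite) (hZ : ∀ a c, (Z ∩ Icc a c).Finite)
    (h : ∀ᵐ v : ℝ, (∀ a ∈ Y, ∀ a' ∈ Y, v - a ∈ band0 b → v - a' ∈ band0 b → a = a') ∧
      (∀ a ∈ Z, ∀ a' ∈ Z, v - a ∈ band0 b → v - a' ∈ band0 b → a = a') ∧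
      ((∃ a ∈ Y, v - a ∈ band0 b) ↔ ∃ a ∈ Z, v - a ∈ band0 b)) (u : ℝ) :
    ind Y u - ind Y (u - b) + ind Y (u - (524 + b)) - ind Y (u - 525)
      = ind Z u - ind Z (u - b) + ind Z (u - (524 + b)) - ind Z (u - 525) := by
  classical
  set S := (hY (u - 526) (u + 1)).toFinset with hSdef
  set T := (hZ (u - 526) (u + 1)).toFinset with hTdef
  have hS : ∀ x, x ∈ S ↔ x ∈ Y ∧ x ∈ Icc (u - 526) (u + 1) := fun x => Set.Finite.mem_toFinset _
  have hT : ∀ x, x ∈ T ↔ x ∈ Z ∧ x ∈ Icc (u - 526) (u + 1) := fun x => Set.Finite.mem_toFinset _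
  have near : ∀ x v : ℝ, |v - u| < 1 / 2 → v - x ∈ band0 b → x ∈ Icc (u - 526) (u + 1) := by
    intro x v hv hx
    rw [abs_lt] at hv
    rcases hx with ⟨h1, h2⟩ | ⟨h1, h2⟩ <;> constructor <;> linarith
  have count : ∀ (W : Set ℝ) (R : Finset ℝ) (v : ℝ),
      (∀ x, x ∈ R ↔ x ∈ W ∧ x ∈ Icc (u - 526) (u + 1)) → |v - u| < 1 / 2 →
      (∀ a ∈ W, ∀ a' ∈ W, v - a ∈ band0 b → v - a' ∈ band0 b → a = a') →
      cover R (band0 b) v = if (∃ a ∈ W, v - a ∈ band0 b) then 1 else 0 := by
    intro W R v hR hv huniq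
    rw [cover]
    split_ifs with he
    · obtain ⟨a, ha, ha'⟩ := he
      have : R.filter (fun x => v - x ∈ band0 b) = {a} := by
        refine Finset.eq_singleton_iff_unique_mem.2
          ⟨Finset.mem_filter.2 ⟨(hR a).2 ⟨ha, near a v hv ha'⟩, ha'⟩, fun x hx => ?_⟩
        rw [Finset.mem_filter, hR] at hx
        exact huniq x hx.1.1 a ha hx.2 ha'
      rw [this, Finset.card_singleton, Nat.cast_one]
    · rw [Finset.filter_eq_empty_iff.2 fun x hx hx' => he ⟨x, ((hR x).1 hx).1, hx'⟩]
      rfl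
  have side : ∀ (B : Set ℝ) (v : ℝ) (R : Finset ℝ),
      (∀ x ∈ R, (v - x ∈ band0 b ↔ u - x ∈ B)) → cover R (band0 b) v = cover R B u :=
    fun B v R hR => by rw [cover, cover, Finset.filter_congr hR]
  obtain ⟨c, hc, hIoo⟩ := mem_nhdsGT_iff_exists_Ioo_subset.1
    ((right_stable (b := b) (S ∪ T) u).and (Ioo_mem_nhdsGT (show u < u + 1 / 2 by linarith)))
  obtain ⟨v, hv, hv1, hv2, hv3⟩ := exists_mem_Ioo h hc
  obtain ⟨hst, hvu⟩ := hIoo hv
  have hr : cover S (band0 b) u = cover T (band0 b) u := by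
    have hab : |v - u| < 1 / 2 := by
      rw [abs_lt]; constructor <;> linarith [hvu.1, hvu.2]
    rw [← side _ v S fun x hx => hst x (Finset.mem_union_left _ hx),
      ← side _ v T fun x hx => hst x (Finset.mem_union_right _ hx),
      count Y S v hS hab hv1, count Z T v hT hab hv2]
    simp only [hv3]
  obtain ⟨c', hc', hIoo'⟩ := mem_nhdsLT_iff_exists_Ioo_subset.1
    ((left_stable (b := b) (S ∪ T) u).and (Ioo_mem_nhdsLT (show u - 1 / 2 < u by linarith)))
  obtain ⟨v', hv', hv1', hv2', hv3'⟩ := exists_mem_Ioo h hc'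
  obtain ⟨hst', hvu'⟩ := hIoo' hv'
  have hl : cover S (Ioc 0 b ∪ Ioc (524 + b) 525) u = cover T (Ioc 0 b ∪ Ioc (524 + b) 525) u := by
    have hab : |v' - u| < 1 / 2 := by
      rw [abs_lt]; constructor <;> linarith [hvu'.1, hvu'.2]
    rw [← side _ v' S fun x hx => hst' x (Finset.mem_union_left _ hx),
      ← side _ v' T fun x hx => hst' x (Finset.mem_union_right _ hx),
      count Y S v' hS hab hv1', count Z T v' hT hab hv2']
    simp only [hv3']
  rw [← cover_jump hb hb' hS, ← cover_jump hb hb' hT, hr, hl]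

theorem per_y (hA : Sol A) (n : ℤ) (y : ℝ) : (n, y) ∈ A ↔ (n, y - 1050) ∈ A := by
  classical
  set Y : Set ℝ := {x | (n, x) ∈ A} with hYdef
  set Z : Set ℝ := {x | (n, x - 1050) ∈ A} with hZdef
  have hY : ∀ a c, (Y ∩ Icc a c).Finite := fun a c => near_finite hA n a c
  have hZ : ∀ a c, (Z ∩ Icc a c).Finite := fun a c => by
    refine ((near_finite hA n (a - 1050) (c - 1050)).image (· + 1050)).subset ?_
    rintro x ⟨hx, h1, h2⟩
    exact ⟨x - 1050, ⟨hx, by constructor <;> linarith⟩, sub_add_cancel x 1050⟩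
  have hjump : ∀ (t : Bool) (u : ℝ),
      ind Y u - ind Y (u - th t) + ind Y (u - (524 + th t)) - ind Y (u - 525)
      = ind Z u - ind Z (u - th t) + ind Z (u - (524 + th t)) - ind Z (u - 525) := by
    intro t
    obtain ⟨hb1, hb2⟩ := th_mem t
    refine jump_eq (by linarith) (by linarith) hY hZ ?_
    set r : Piece := (0, 0, t)
    set q : Piece := (0, 1050, t)
    have hne : q ∉ eqn false t := by
      rw [mem_eqn]
      rintro ⟨s, hs⟩
      have := congrArg (fun p : Piece => p.2.1) hs
      have := vert_range false s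
      simp only [slotP, q] at *
      omega
    filter_upwards [hA.base false t n, hA.my t n] with v h1 h2
    have cY : ∀ a : ℝ, Covers (n, a) r n v ↔ v - a ∈ band0 (th t) := fun a => by
      simp [r, covers_zero]
    have cZ : ∀ a : ℝ, Covers (n, a - 1050) q n v ↔ v - a ∈ band0 (th t) := fun a => by
      rw [covers_zero, Int.cast_ofNat, sub_sub, sub_add_cancel]
    have hq : q ∈ mvd 0 1050 t := Finset.mem_insert_self _ _
    refine ⟨fun a ha a' ha' h h' => ?_, fun a ha a' ha' h h' => ?_, ?_⟩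
    · have := h1.unique (y₁ := ((n, a), r)) (y₂ := ((n, a'), r))
        ⟨ha, zero_mem_eqn t, (cY a).2 h⟩ ⟨ha', zero_mem_eqn t, (cY a').2 h'⟩
      simp only [Prod.mk.injEq] at this
      exact this.1.2
    · have := h2.unique (y₁ := ((n, a - 1050), q)) (y₂ := ((n, a' - 1050), q))
        ⟨ha, hq, (cZ a).2 h⟩ ⟨ha', hq, (cZ a').2 h'⟩
      simp only [Prod.mk.injEq] at this
      linarith [this.1.2]
    constructor
    · rintro ⟨a, ha, h⟩
      obtain ⟨⟨⟨a1, a2⟩, p⟩, ha', hp, hcov⟩ := h2.exists
      rcases Finset.mem_insert.1 hp with rfl | hp'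
      · obtain rfl : a1 = n := by have := hcov.1; simpa [q] using this
        refine ⟨a2 + 1050, by simpa [Z] using ha', (cZ _).1 ?_⟩
        rwa [add_sub_cancel_right]
      · obtain ⟨hpr, hpe⟩ := Finset.mem_erase.1 hp'
        have := h1.unique (y₁ := ((n, a), r)) (y₂ := ((a1, a2), p))
          ⟨ha, zero_mem_eqn t, (cY a).2 h⟩ ⟨ha', hpe, hcov⟩
        exact absurd (congrArg Prod.snd this).symm hpr
    · rintro ⟨a, ha, h⟩
      obtain ⟨⟨⟨a1, a2⟩, p⟩, ha', hp, hcov⟩ := h1.exists
      by_cases hpr : p = r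
      · subst hpr
        obtain rfl : a1 = n := by have := hcov.1; simpa [r] using this
        exact ⟨a2, ha', (cY _).1 hcov⟩
      · have := h2.unique (y₁ := ((n, a - 1050), q)) (y₂ := ((a1, a2), p))
          ⟨ha, hq, (cZ a).2 h⟩
          ⟨ha', Finset.mem_insert_of_mem (Finset.mem_erase.2 ⟨hpr, hp⟩), hcov⟩
        have hpq : q = p := congrArg Prod.snd this
        exact absurd (hpq.symm ▸ hp) hne
  set D : ℝ → ℤ := fun u => ind Y u - ind Z u with hD
  have hJ : ∀ t u, D u - D (u - th t) + D (u - (524 + th t)) - D (u - 525) = 0 := by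
    intro t u
    have := hjump t u
    simp only [hD]
    linarith
  have hv : ∀ w, D w = D (w - 524) := by
    set v : ℝ → ℤ := fun w => D w - D (w - 524)
    have hper : ∀ w, v (w + 1 / 12) = v w := by
      intro w
      have h1 := hJ false (w + 1 / 3)
      have h2 := hJ true (w + 1 / 3)
      simp only [th, cond_false, cond_true] at h1 h2
      simp only [v]
      rw [show w + 1 / 3 - 1 / 4 = w + 1 / 12 by ring,
        show w + 1 / 3 - (524 + 1 / 4) = w + 1 / 12 - 524 by ring] at h1
      rw [show w + 1 / 3 - 1 / 3 = w by ring, show w + 1 / 3 - (524 + 1 / 3) = w - 524 by ring] at h2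
      linarith
    intro w
    by_contra hw
    have hj : ∀ j : ℕ, v (w + j / 12) ≠ 0 := by
      intro j
      induction j with
      | zero => simpa [v, sub_eq_zero] using hw
      | succ j ih =>
        rw [show w + ((j + 1 : ℕ) : ℝ) / 12 = w + (j : ℝ) / 12 + 1 / 12 by push_cast; ring, hper]
        exact ih
    set W : Fin 4 → Set ℝ := ![Y, Z, {x | x - 524 ∈ Y}, {x | x - 524 ∈ Z}]
    have hW : ∀ j : Fin 9, ∃ i, w + (j.val : ℝ) / 12 ∈ W i := by
      intro j
      by_contra hno
      push Not at hno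
      have e0 : w + (j.val : ℝ) / 12 ∉ Y := hno 0
      have e1 : w + (j.val : ℝ) / 12 ∉ Z := hno 1
      have e2 : w + (j.val : ℝ) / 12 - 524 ∉ Y := hno 2
      have e3 : w + (j.val : ℝ) / 12 - 524 ∉ Z := hno 3
      exact hj j.val (by simp [v, hD, ind, e0, e1, e2, e3])
    choose f hf using hW
    obtain ⟨i, j, hij, he⟩ := Fintype.exists_ne_map_eq_of_card_lt f (by simp)
    have hsep : ∀ m, ∀ a ∈ W m, ∀ a' ∈ W m, |a - a'| < 3 / 4 → a = a' := by
      intro m a ha a' ha' hd
      fin_cases m
      · exact sep hA ha ha' hd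
      · have := sep hA (x := a - 1050) (x' := a' - 1050) ha ha' (by rwa [sub_sub_sub_cancel_right])
        linarith
      · have := sep hA (x := a - 524) (x' := a' - 524) ha ha' (by rwa [sub_sub_sub_cancel_right])
        linarith
      · have := sep hA (x := a - 524 - 1050) (x' := a' - 524 - 1050) ha ha'
          (by rwa [sub_sub_sub_cancel_right, sub_sub_sub_cancel_right])
        linarith
    have h := hsep (f i) _ (hf i) _ (he ▸ hf j) (by
      have hi : (i.val : ℝ) ≤ 8 := by exact_mod_cast (show i.val ≤ 8 by omega)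
      have hj' : (j.val : ℝ) ≤ 8 := by exact_mod_cast (show j.val ≤ 8 by omega)
      have : (0 : ℝ) ≤ i.val := Nat.cast_nonneg _
      have : (0 : ℝ) ≤ j.val := Nat.cast_nonneg _
      rw [abs_lt]; constructor <;> linarith)
    exact hij (Fin.ext (by exact_mod_cast (show (i.val : ℝ) = j.val by linarith)))
  have h525 : ∀ u, D u = D (u - 525) := by
    intro u
    have h := hJ false u
    simp only [th, cond_false] at h
    rw [hv (u - 1 / 4), show u - 1 / 4 - 524 = u - (524 + 1 / 4) by ring] at h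
    linarith
  have h1050 : D (y + 1050) = D y := by
    rw [h525 (y + 1050), h525, add_sub_assoc, add_sub_assoc]
    norm_num
  have hZY : ∀ x, ind Z x = ind Y (x - 1050) := fun x => rfl
  simp only [hD, hZY, add_sub_cancel_right] at h1050
  simp only [ind] at h1050
  change y ∈ Y ↔ y - 1050 ∈ Y
  by_cases h1 : y ∈ Y <;> by_cases h2 : y - 1050 ∈ Y <;>
    first
      | exact iff_of_true h1 h2
      | exact iff_of_false h1 h2
      | (simp only [h1, h2, if_true, if_false] at h1050
         split_ifs at h1050 <;> omega)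

theorem per_y_int (hA : Sol A) (n : ℤ) (y : ℝ) (t : ℤ) :
    (n, y) ∈ A ↔ (n, y + 1050 * t) ∈ A := by
  induction t with
  | zero => simp
  | succ k hk => rw [hk, per_y hA n (y + 1050 * ((k : ℤ) + 1 : ℤ))]; push_cast; ring_nf
  | pred k hk => rw [hk, per_y hA n (y + 1050 * (-(k : ℤ) : ℤ))]; push_cast; ring_nf

end Vale.Agent.P043.R2
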